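import Mathlib

/-!
# P227 / M / LL : calculus of the log-Laplace transform

`E` a finite-dimensional real inner product space, `W : E → ℝ` continuous with
`a ‖x‖² - C ≤ W x` (`a > 0`).  `Z W y = ∫ exp(⟪x,y⟫ - W x) dx`, `Lam W y = log (Z W y)`,
`av W y g` = average of `g` under the probability density proportional to `exp(⟪x,y⟫ - W x)`.
-/

open MeasureTheory Real Filter Topology
open scoped RealInnerProductSpace ContDiff Nat

set_option linter.unusedSectionVars false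

namespace Vale.Agent.P227.M.LL.Sm

noncomputable section

variable {E : Type} [NormedAddCommGroup E] [InnerProductSpace ℝ E] [FiniteDimensional ℝ E]
  [MeasurableSpace E] [BorelSpace E]

/-- Growth hypothesis on a potential: continuous, with a quadratic lower bound. -/
structure Gr (W : E → ℝ) (a C : ℝ) : Prop where
  cont : Continuous W
  pos : 0 < a
  low : ∀ x, a * ‖x‖ ^ 2 - C ≤ W x

/-- continuous functions of polynomial growth -/
def Pg {F : Type} [NormedAddCommGroup F] (g : E → F) : Prop :=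
  Continuous g ∧ ∃ (B : ℝ) (k : ℕ), ∀ x, ‖g x‖ ≤ B * (1 + ‖x‖) ^ k

/-- the weighted integral `∫ exp(⟪x,y⟫ - W x) • g x dx` -/
def I {F : Type} [NormedAddCommGroup F] [NormedSpace ℝ F] (W : E → ℝ) (g : E → F) (y : E) : F :=
  ∫ x, Real.exp (⟪x, y⟫ - W x) • g x

/-- Laplace transform -/
def Z (W : E → ℝ) (y : E) : ℝ := ∫ x, Real.exp (⟪x, y⟫ - W x)

/-- log-Laplace transform -/
def Lam (W : E → ℝ) (y : E) : ℝ := Real.log (Z W y)

/-- average of `g` under the tilted measure -/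
def av {F : Type} [NormedAddCommGroup F] [NormedSpace ℝ F] (W : E → ℝ) (y : E) (g : E → F) : F :=
  (Z W y)⁻¹ • I W g y

theorem pow_exp_le (k : ℕ) {a : ℝ} (ha : 0 < a) (b r : ℝ) (hr : 0 ≤ r) :
    (1 + r) ^ k * Real.exp (b * r - a * r ^ 2)
      ≤ (k ! * Real.exp (1 + (b + 1) ^ 2 / (2 * a))) * Real.exp (-(a / 2 * r ^ 2)) := by
  have h1 : (1 + r) ^ k ≤ k ! * Real.exp (1 + r) := by
    have h := Real.pow_div_factorial_le_exp (1 + r) (by linarith) k
    rw [div_le_iff₀ (by positivity)] at h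
    linarith
  have h2 : (1 + r) + (b * r - a * r ^ 2) ≤ (1 + (b + 1) ^ 2 / (2 * a)) + (-(a / 2 * r ^ 2)) := by
    have h3 : 0 ≤ (b + 1) ^ 2 / (2 * a) - (b + 1) * r + a / 2 * r ^ 2 := by
      have : (b + 1) ^ 2 / (2 * a) - (b + 1) * r + a / 2 * r ^ 2
          = ((b + 1) - a * r) ^ 2 / (2 * a) := by
        field_simp
        ring
      rw [this]
      positivity
    nlinarith
  calc (1 + r) ^ k * Real.exp (b * r - a * r ^ 2)
      ≤ (k ! * Real.exp (1 + r)) * Real.exp (b * r - a * r ^ 2) :=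
        mul_le_mul_of_nonneg_right h1 (Real.exp_pos _).le
    _ = k ! * Real.exp ((1 + r) + (b * r - a * r ^ 2)) := by
        rw [Real.exp_add (1 + r) (b * r - a * r ^ 2)]; ring
    _ ≤ k ! * Real.exp ((1 + (b + 1) ^ 2 / (2 * a)) + (-(a / 2 * r ^ 2))) :=
        mul_le_mul_of_nonneg_left (Real.exp_le_exp.mpr h2) (by positivity)
    _ = _ := by rw [Real.exp_add (1 + (b + 1) ^ 2 / (2 * a)) (-(a / 2 * r ^ 2))]; ring

theorem integrable_gauss {a : ℝ} (ha : 0 < a) :
    Integrable (fun x : E => Real.exp (-(a * ‖x‖ ^ 2))) := by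
  have h := (GaussianFourier.integrable_cexp_neg_mul_sq_norm_add (V := E) (b := (a : ℂ))
    (by simpa using ha) 0 0).norm
  refine h.congr (Eventually.of_forall fun x => ?_)
  simp only [Complex.norm_exp]
  congr 1
  simp only [zero_mul, add_zero, neg_mul, Complex.neg_re]
  congr 1
  rw [show ((a : ℂ) * (‖x‖ : ℂ) ^ 2) = ((a * ‖x‖ ^ 2 : ℝ) : ℂ) by push_cast; ring]
  exact Complex.ofReal_re _

section General

variable {F : Type} [NormedAddCommGroup F] [NormedSpace ℝ F]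

/-- the constant of the domination -/
def K (a C R B : ℝ) (k : ℕ) : ℝ := B * Real.exp C * (k ! * Real.exp (1 + (R + 1) ^ 2 / (2 * a)))

theorem bd {W : E → ℝ} {a C : ℝ} (hW : Gr W a C) {g : E → F} {B : ℝ} {k : ℕ}
    (hg : ∀ x, ‖g x‖ ≤ B * (1 + ‖x‖) ^ k) {R : ℝ} {y : E} (hy : ‖y‖ ≤ R) (x : E) :
    ‖Real.exp (⟪x, y⟫ - W x) • g x‖ ≤ K a C R B k * Real.exp (-(a / 2 * ‖x‖ ^ 2)) := by
  have hB : 0 ≤ B := by
    have := (norm_nonneg _).trans (hg 0)
    simpa using this
  rw [norm_smul, Real.norm_eq_abs, abs_of_pos (Real.exp_pos _)]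
  have h1 : ⟪x, y⟫ - W x ≤ C + (R * ‖x‖ - a * ‖x‖ ^ 2) := by
    have h2 : ⟪x, y⟫ ≤ ‖x‖ * ‖y‖ := real_inner_le_norm x y
    have h3 : ‖x‖ * ‖y‖ ≤ ‖x‖ * R := mul_le_mul_of_nonneg_left hy (norm_nonneg _)
    have h4 := hW.low x
    nlinarith
  calc Real.exp (⟪x, y⟫ - W x) * ‖g x‖
      ≤ Real.exp (C + (R * ‖x‖ - a * ‖x‖ ^ 2)) * (B * (1 + ‖x‖) ^ k) :=
        mul_le_mul (Real.exp_le_exp.mpr h1) (hg x) (norm_nonneg _) (Real.exp_pos _).le
    _ = B * Real.exp C * ((1 + ‖x‖) ^ k * Real.exp (R * ‖x‖ - a * ‖x‖ ^ 2)) := by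
        rw [Real.exp_add]; ring
    _ ≤ B * Real.exp C * ((k ! * Real.exp (1 + (R + 1) ^ 2 / (2 * a)))
          * Real.exp (-(a / 2 * ‖x‖ ^ 2))) :=
        mul_le_mul_of_nonneg_left (pow_exp_le k hW.pos R _ (norm_nonneg _)) (by positivity)
    _ = _ := by unfold K; ring

theorem aesm {W : E → ℝ} {a C : ℝ} (hW : Gr W a C) {g : E → F} (hg : Continuous g) (y : E) :
    AEStronglyMeasurable (fun x => Real.exp (⟪x, y⟫ - W x) • g x) (volume : Measure E) := by
  have h1 := hW.cont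
  have : Continuous (fun x => Real.exp (⟪x, y⟫ - W x) • g x) := by fun_prop
  exact this.aestronglyMeasurable

theorem integrable {W : E → ℝ} {a C : ℝ} (hW : Gr W a C) {g : E → F} (hg : Pg g) (y : E) :
    Integrable (fun x => Real.exp (⟪x, y⟫ - W x) • g x) := by
  obtain ⟨hc, B, k, hb⟩ := hg
  refine Integrable.mono' ((integrable_gauss (half_pos hW.pos)).const_mul (K a C ‖y‖ B k))
    (aesm hW hc y) (Eventually.of_forall fun x => ?_)
  exact bd hW hb le_rfl x

/-- the tensor `x ↦ ⟪x,·⟫ ⊗ g x` -/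
def up (g : E → F) (x : E) : E →L[ℝ] F := (innerSL ℝ x).smulRight (g x)

theorem up_apply (g : E → F) (x v : E) : up g x v = ⟪x, v⟫ • g x := by
  simp [up]

theorem norm_up_le (g : E → F) (x : E) : ‖up g x‖ ≤ ‖x‖ * ‖g x‖ := by
  refine ContinuousLinearMap.opNorm_le_bound _ (by positivity) fun v => ?_
  rw [up_apply, norm_smul, Real.norm_eq_abs]
  calc |⟪x, v⟫| * ‖g x‖ ≤ (‖x‖ * ‖v‖) * ‖g x‖ :=
        mul_le_mul_of_nonneg_right (abs_real_inner_le_norm x v) (norm_nonneg _)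
    _ = _ := by ring

theorem Pg.up {g : E → F} (hg : Pg g) : Pg (Sm.up g) := by
  obtain ⟨hc, B, k, hb⟩ := hg
  refine ⟨?_, B, k + 1, fun x => ?_⟩
  · have h1 : Continuous (fun x : E => (innerSL ℝ x : E →L[ℝ] ℝ)) := (innerSL ℝ).continuous
    have h2 : Continuous (fun x : E =>
        (ContinuousLinearMap.smulRightL ℝ E F (innerSL ℝ x)) (g x)) := by
      have h3 : Continuous (fun x : E => ContinuousLinearMap.smulRightL ℝ E F (innerSL ℝ x)) :=
        (ContinuousLinearMap.smulRightL ℝ E F).continuous.comp h1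
      exact h3.clm_apply hc
    exact h2
  · have hB : 0 ≤ B * (1 + ‖x‖) ^ k := (norm_nonneg _).trans (hb x)
    calc ‖Sm.up g x‖ ≤ ‖x‖ * ‖g x‖ := norm_up_le g x
      _ ≤ (1 + ‖x‖) * (B * (1 + ‖x‖) ^ k) :=
          mul_le_mul (by linarith) (hb x) (norm_nonneg _) (by positivity)
      _ = B * (1 + ‖x‖) ^ (k + 1) := by ring

theorem hasFDerivAt_I {W : E → ℝ} {a C : ℝ} (hW : Gr W a C) {g : E → F} (hg : Pg g) (y : E) :
    HasFDerivAt (I W g) (I W (up g) y) y := by
  have hu := hg.up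
  obtain ⟨hc, B, k, hb⟩ := hu
  refine hasFDerivAt_integral_of_dominated_of_fderiv_le (s := Metric.ball y 1)
    (F := fun y x => Real.exp (⟪x, y⟫ - W x) • g x)
    (F' := fun y x => Real.exp (⟪x, y⟫ - W x) • up g x)
    (bound := fun x => K a C (‖y‖ + 1) B k * Real.exp (-(a / 2 * ‖x‖ ^ 2)))
    (Metric.ball_mem_nhds y one_pos)
    (Eventually.of_forall fun z => aesm hW hg.1 z) (integrable hW hg y)
    (aesm hW hc y) (Eventually.of_forall fun x z hz => ?_)
    ((integrable_gauss (half_pos hW.pos)).const_mul _)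
    (Eventually.of_forall fun x z hz => ?_)
  · refine bd hW hb ?_ x
    have h1 : ‖z - y‖ < 1 := by simpa [dist_eq_norm] using hz
    have h2 : ‖z‖ ≤ ‖z - y‖ + ‖y‖ := by simpa using norm_add_le (z - y) y
    linarith
  · have h1 : HasFDerivAt (fun z : E => ⟪x, z⟫ - W x) (innerSL ℝ x) z := by
      have := ((innerSL ℝ x : E →L[ℝ] ℝ).hasFDerivAt (x := z)).sub_const (W x)
      simpa using this
    have h2 := h1.exp.smul_const (g x)
    convert h2 using 1
    ext v
    simp [up, smul_smul]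

theorem contDiff_I {W : E → ℝ} {a C : ℝ} (hW : Gr W a C) (n : ℕ) :
    ∀ {F : Type} [NormedAddCommGroup F] [NormedSpace ℝ F] (g : E → F), Pg g →
      ContDiff ℝ n (I W g) := by
  induction n with
  | zero =>
    intro F _ _ g hg
    exact contDiff_zero.mpr (continuous_iff_continuousAt.mpr fun y =>
      (hasFDerivAt_I hW hg y).continuousAt)
  | succ n ih =>
    intro F _ _ g hg
    have := (contDiff_succ_iff_hasFDerivAt (𝕜 := ℝ) (n := n) (f := I W g)).mpr
      ⟨I W (up g), ih _ hg.up, fun y => hasFDerivAt_I hW hg y⟩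
    exact_mod_cast this

theorem contDiff_I_infty {W : E → ℝ} {a C : ℝ} (hW : Gr W a C) {g : E → F} (hg : Pg g) :
    ContDiff ℝ ∞ (I W g) :=
  contDiff_infty.mpr fun n => contDiff_I hW n g hg

end General

theorem Pg.const {F : Type} [NormedAddCommGroup F] (c : F) : Pg (fun _ : E => c) :=
  ⟨continuous_const, ‖c‖, 0, fun x => by simp⟩

theorem Pg.id : Pg (fun x : E => x) :=
  ⟨continuous_id, 1, 1, fun x => by simp⟩

theorem Pg.inner (v : E) : Pg (fun x : E => ⟪x, v⟫) := by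
  refine ⟨by fun_prop, ‖v‖, 1, fun x => ?_⟩
  have := abs_real_inner_le_norm x v
  rw [Real.norm_eq_abs, pow_one]
  nlinarith [norm_nonneg x, norm_nonneg v]

theorem Pg.add {F : Type} [NormedAddCommGroup F] {g h : E → F} (hg : Pg g) (hh : Pg h) :
    Pg (fun x => g x + h x) := by
  obtain ⟨hc, B, k, hb⟩ := hg
  obtain ⟨hc', B', k', hb'⟩ := hh
  have hB : 0 ≤ B := by simpa using (norm_nonneg _).trans (hb 0)
  have hB' : 0 ≤ B' := by simpa using (norm_nonneg _).trans (hb' 0)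
  refine ⟨hc.add hc', B + B', k + k', fun x => ?_⟩
  have h1 : (1 : ℝ) ≤ 1 + ‖x‖ := by linarith [norm_nonneg x]
  calc ‖g x + h x‖ ≤ ‖g x‖ + ‖h x‖ := norm_add_le _ _
    _ ≤ B * (1 + ‖x‖) ^ k + B' * (1 + ‖x‖) ^ k' := add_le_add (hb x) (hb' x)
    _ ≤ B * (1 + ‖x‖) ^ (k + k') + B' * (1 + ‖x‖) ^ (k + k') := by
        gcongr
        · omega
        · omega
    _ = _ := by ring

theorem Pg.smul {F : Type} [NormedAddCommGroup F] [NormedSpace ℝ F] {h : E → ℝ} {g : E → F}
    (hh : Pg h) (hg : Pg g) : Pg (fun x => h x • g x) := by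
  obtain ⟨hc, B, k, hb⟩ := hg
  obtain ⟨hc', B', k', hb'⟩ := hh
  have hB : 0 ≤ B := by simpa using (norm_nonneg _).trans (hb 0)
  have hB' : 0 ≤ B' := by simpa using (norm_nonneg _).trans (hb' 0)
  refine ⟨hc'.smul hc, B' * B, k' + k, fun x => ?_⟩
  rw [norm_smul]
  calc ‖h x‖ * ‖g x‖ ≤ (B' * (1 + ‖x‖) ^ k') * (B * (1 + ‖x‖) ^ k) :=
        mul_le_mul (hb' x) (hb x) (norm_nonneg _) (by positivity)
    _ = _ := by rw [pow_add]; ring

theorem Pg.mul {g h : E → ℝ} (hg : Pg g) (hh : Pg h) : Pg (fun x => g x * h x) := by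
  simpa [smul_eq_mul] using Pg.smul hg hh

theorem Pg.pow {g : E → ℝ} (hg : Pg g) (n : ℕ) : Pg (fun x => g x ^ n) := by
  induction n with
  | zero => simpa using (Pg.const (E := E) (1 : ℝ))
  | succ n ih => simpa [pow_succ] using ih.mul hg

theorem Pg.neg {F : Type} [NormedAddCommGroup F] {g : E → F} (hg : Pg g) :
    Pg (fun x => - g x) := by
  obtain ⟨hc, B, k, hb⟩ := hg
  exact ⟨hc.neg, B, k, fun x => by simpa using hb x⟩

theorem Pg.sub {F : Type} [NormedAddCommGroup F] {g h : E → F} (hg : Pg g) (hh : Pg h) :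
    Pg (fun x => g x - h x) := by
  simpa [sub_eq_add_neg] using hg.add hh.neg

/-! ### The partition function -/

theorem Z_eq_I (W : E → ℝ) (y : E) : Z W y = I W (fun _ => (1 : ℝ)) y := by
  simp [Z, I]

theorem integrable_exp {W : E → ℝ} {a C : ℝ} (hW : Gr W a C) (y : E) :
    Integrable (fun x => Real.exp (⟪x, y⟫ - W x)) := by
  simpa using integrable hW (Pg.const (E := E) (1 : ℝ)) y

theorem Z_pos {W : E → ℝ} {a C : ℝ} (hW : Gr W a C) (y : E) : 0 < Z W y :=
  integral_exp_pos (integrable_exp hW y)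

theorem contDiff_Z {W : E → ℝ} {a C : ℝ} (hW : Gr W a C) : ContDiff ℝ ∞ (Z W) := by
  have h : Z W = I W (fun _ => (1 : ℝ)) := funext fun y => Z_eq_I W y
  rw [h]
  exact contDiff_I_infty hW (Pg.const 1)

theorem contDiff_Lam {W : E → ℝ} {a C : ℝ} (hW : Gr W a C) : ContDiff ℝ ∞ (Lam W) :=
  (contDiff_Z hW).log fun y => (Z_pos hW y).ne'

theorem contDiff_av {F : Type} [NormedAddCommGroup F] [NormedSpace ℝ F] {W : E → ℝ} {a C : ℝ}
    (hW : Gr W a C) {g : E → F} (hg : Pg g) : ContDiff ℝ ∞ (fun y => av W y g) :=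
  ((contDiff_Z hW).inv fun y => (Z_pos hW y).ne').smul (contDiff_I_infty hW hg)

/-! ### Linearity of averages -/

section Lin

variable {F : Type} [NormedAddCommGroup F] [NormedSpace ℝ F]

theorem I_add {W : E → ℝ} {a C : ℝ} (hW : Gr W a C) {g h : E → F} (hg : Pg g) (hh : Pg h)
    (y : E) : I W (fun x => g x + h x) y = I W g y + I W h y := by
  unfold I
  simp only [smul_add]
  exact integral_add (integrable hW hg y) (integrable hW hh y)

theorem I_sub {W : E → ℝ} {a C : ℝ} (hW : Gr W a C) {g h : E → F} (hg : Pg g) (hh : Pg h)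
    (y : E) : I W (fun x => g x - h x) y = I W g y - I W h y := by
  unfold I
  simp only [smul_sub]
  exact integral_sub (integrable hW hg y) (integrable hW hh y)

theorem I_smul (W : E → ℝ) (g : E → F) (c : ℝ) (y : E) :
    I W (fun x => c • g x) y = c • I W g y := by
  unfold I
  rw [← integral_smul]
  exact integral_congr_ae (Eventually.of_forall fun x => by simp only [smul_smul]; rw [mul_comm])

theorem av_add {W : E → ℝ} {a C : ℝ} (hW : Gr W a C) {g h : E → F} (hg : Pg g) (hh : Pg h)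
    (y : E) : av W y (fun x => g x + h x) = av W y g + av W y h := by
  unfold av
  rw [I_add hW hg hh, smul_add]

theorem av_sub {W : E → ℝ} {a C : ℝ} (hW : Gr W a C) {g h : E → F} (hg : Pg g) (hh : Pg h)
    (y : E) : av W y (fun x => g x - h x) = av W y g - av W y h := by
  unfold av
  rw [I_sub hW hg hh, smul_sub]

theorem av_smul (W : E → ℝ) (g : E → F) (c : ℝ) (y : E) :
    av W y (fun x => c • g x) = c • av W y g := by
  unfold av
  rw [I_smul, smul_comm]

theorem av_const_mul (W : E → ℝ) (g : E → ℝ) (c : ℝ) (y : E) :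
    av W y (fun x => c * g x) = c * av W y g := by
  simpa [smul_eq_mul] using av_smul W g c y

theorem av_one {W : E → ℝ} {a C : ℝ} (hW : Gr W a C) (y : E) :
    av W y (fun _ => (1 : ℝ)) = 1 := by
  unfold av
  rw [← Z_eq_I, smul_eq_mul, inv_mul_cancel₀ (Z_pos hW y).ne']

theorem av_const {W : E → ℝ} {a C : ℝ} (hW : Gr W a C) (y : E) (c : ℝ) :
    av W y (fun _ => c) = c := by
  have := av_const_mul W (fun _ : E => (1 : ℝ)) c y
  rw [av_one hW] at this
  simpa using this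

theorem av_mono {W : E → ℝ} {a C : ℝ} (hW : Gr W a C) {g h : E → ℝ} (hg : Pg g) (hh : Pg h)
    (y : E) (hgh : ∀ x, g x ≤ h x) : av W y g ≤ av W y h := by
  unfold av
  simp only [smul_eq_mul]
  refine mul_le_mul_of_nonneg_left ?_ (inv_nonneg.mpr (Z_pos hW y).le)
  unfold I
  refine integral_mono (integrable hW hg y) (integrable hW hh y) fun x => ?_
  simp only [smul_eq_mul]
  exact mul_le_mul_of_nonneg_left (hgh x) (Real.exp_pos _).le

theorem av_nonneg {W : E → ℝ} {a C : ℝ} (hW : Gr W a C) {g : E → ℝ} (y : E)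
    (hg : ∀ x, 0 ≤ g x) : 0 ≤ av W y g := by
  unfold av I
  simp only [smul_eq_mul]
  exact mul_nonneg (inv_nonneg.mpr (Z_pos hW y).le)
    (integral_nonneg fun x => mul_nonneg (Real.exp_pos _).le (hg x))

end Lin

/-! ### Derivatives -/

section Deriv

variable {F : Type} [NormedAddCommGroup F] [NormedSpace ℝ F] [CompleteSpace F]

theorem I_up_apply {W : E → ℝ} {a C : ℝ} (hW : Gr W a C) {g : E → F} (hg : Pg g) (y v : E) :
    I W (up g) y v = I W (fun x => ⟪x, v⟫ • g x) y := by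
  unfold I
  rw [ContinuousLinearMap.integral_apply (integrable hW hg.up y)]
  refine integral_congr_ae (Eventually.of_forall fun x => ?_)
  simp [up_apply]

theorem hasDerivAt_I {W : E → ℝ} {a C : ℝ} (hW : Gr W a C) {g : E → F} (hg : Pg g) (y v : E)
    (t : ℝ) :
    HasDerivAt (fun t : ℝ => I W g (y + t • v)) (I W (fun x => ⟪x, v⟫ • g x) (y + t • v)) t := by
  have h1 : HasDerivAt (fun t : ℝ => y + t • v) v t := by
    simpa using ((hasDerivAt_id t).smul_const v).const_add y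
  have h2 := (hasFDerivAt_I hW hg (y + t • v)).comp_hasDerivAt t h1
  rwa [I_up_apply hW hg] at h2

theorem hasDerivAt_Z {W : E → ℝ} {a C : ℝ} (hW : Gr W a C) (y v : E) (t : ℝ) :
    HasDerivAt (fun t : ℝ => Z W (y + t • v)) (I W (fun x => ⟪x, v⟫) (y + t • v)) t := by
  have h := hasDerivAt_I hW (Pg.const (E := E) (1 : ℝ)) y v t
  simp only [smul_eq_mul, mul_one] at h
  simpa only [Z_eq_I] using h

/-- first derivative of the log-Laplace transform on a line -/
theorem hasDerivAt_Lam {W : E → ℝ} {a C : ℝ} (hW : Gr W a C) (y v : E) (t : ℝ) :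
    HasDerivAt (fun t : ℝ => Lam W (y + t • v)) (av W (y + t • v) (fun x => ⟪x, v⟫)) t := by
  have h := (hasDerivAt_Z hW y v t).log (Z_pos hW _).ne'
  refine HasDerivAt.congr_deriv (f := fun t : ℝ => Lam W (y + t • v)) h ?_
  unfold av
  rw [smul_eq_mul, div_eq_inv_mul]

/-- derivative of an average on a line = covariance with `⟪·,v⟫` -/
theorem hasDerivAt_av {W : E → ℝ} {a C : ℝ} (hW : Gr W a C) {g : E → F} (hg : Pg g) (y v : E)
    (t : ℝ) :
    HasDerivAt (fun t : ℝ => av W (y + t • v) g)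
      (av W (y + t • v) (fun x => (⟪x, v⟫ - av W (y + t • v) (fun x => ⟪x, v⟫)) • g x)) t := by
  have h1 := (hasDerivAt_Z hW y v t).inv (Z_pos hW _).ne'
  have h2 := h1.smul (hasDerivAt_I hW hg y v t)
  refine HasDerivAt.congr_deriv (f := fun t : ℝ => av W (y + t • v) g) h2 ?_
  have h3 := (Z_pos hW (y + t • v)).ne'
  set m := av W (y + t • v) (fun x => ⟪x, v⟫) with hm
  have h4 : (fun x : E => (⟪x, v⟫ - m) • g x) = fun x => ⟪x, v⟫ • g x - m • g x := by
    funext x; rw [sub_smul]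
  rw [h4, av_sub hW ((Pg.inner v).smul hg) ((Pg.const m).smul hg), av_smul]
  unfold av at hm ⊢
  rw [hm, smul_eq_mul, sub_eq_add_neg, smul_smul, ← neg_smul]
  have e1 : ((fun t : ℝ => Z W (y + t • v))⁻¹ : ℝ → ℝ) t = (Z W (y + t • v))⁻¹ := rfl
  rw [e1]
  congr 2
  field_simp

end Deriv

/-- second central moment of `⟪·,v⟫` -/
def c2 (W : E → ℝ) (y v : E) : ℝ := av W y (fun x => (⟪x, v⟫ - av W y (fun x => ⟪x, v⟫)) ^ 2)

/-- third central moment of `⟪·,v⟫` -/
def c3 (W : E → ℝ) (y v : E) : ℝ := av W y (fun x => (⟪x, v⟫ - av W y (fun x => ⟪x, v⟫)) ^ 3)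

theorem c2_eq {W : E → ℝ} {a C : ℝ} (hW : Gr W a C) (y v : E) :
    c2 W y v = av W y (fun x => ⟪x, v⟫ ^ 2) - (av W y (fun x => ⟪x, v⟫)) ^ 2 := by
  unfold c2
  set m := av W y (fun x => ⟪x, v⟫) with hm
  have h1 : (fun x : E => (⟪x, v⟫ - m) ^ 2)
      = fun x => (⟪x, v⟫ ^ 2 - (2 * m) * ⟪x, v⟫) + m ^ 2 := by funext x; ring
  have hv := Pg.inner (E := E) v
  rw [h1, av_add hW ((hv.pow 2).sub ((Pg.const _).mul hv)) (Pg.const _),
    av_sub hW (hv.pow 2) ((Pg.const _).mul hv), av_const_mul, av_const hW, ← hm]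
  ring

theorem c3_eq {W : E → ℝ} {a C : ℝ} (hW : Gr W a C) (y v : E) :
    c3 W y v = av W y (fun x => ⟪x, v⟫ ^ 3)
      - 3 * av W y (fun x => ⟪x, v⟫) * av W y (fun x => ⟪x, v⟫ ^ 2)
      + 2 * (av W y (fun x => ⟪x, v⟫)) ^ 3 := by
  unfold c3
  set m := av W y (fun x => ⟪x, v⟫) with hm
  have h1 : (fun x : E => (⟪x, v⟫ - m) ^ 3)
      = fun x => ((⟪x, v⟫ ^ 3 - (3 * m) * ⟪x, v⟫ ^ 2) + (3 * m ^ 2) * ⟪x, v⟫) - m ^ 3 := by
    funext x; ring
  have hv := Pg.inner (E := E) v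
  rw [h1, av_sub hW (((hv.pow 3).sub ((Pg.const _).mul (hv.pow 2))).add ((Pg.const _).mul hv))
      (Pg.const _),
    av_add hW ((hv.pow 3).sub ((Pg.const _).mul (hv.pow 2))) ((Pg.const _).mul hv),
    av_sub hW (hv.pow 3) ((Pg.const _).mul (hv.pow 2)), av_const_mul, av_const_mul,
    av_const hW, ← hm]
  ring

/-- second derivative of the log-Laplace transform on a line = variance -/
theorem hasDerivAt_m1 {W : E → ℝ} {a C : ℝ} (hW : Gr W a C) (y v : E) (t : ℝ) :
    HasDerivAt (fun t : ℝ => av W (y + t • v) (fun x => ⟪x, v⟫)) (c2 W (y + t • v) v) t := by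
  have h := hasDerivAt_av hW (Pg.inner v) y v t
  refine HasDerivAt.congr_deriv h ?_
  rw [c2_eq hW]
  set m := av W (y + t • v) (fun x => ⟪x, v⟫) with hm
  have h4 : (fun x : E => (⟪x, v⟫ - m) • ⟪x, v⟫) = fun x => ⟪x, v⟫ ^ 2 - m * ⟪x, v⟫ := by
    funext x; simp only [smul_eq_mul]; ring
  have hv := Pg.inner (E := E) v
  rw [h4, av_sub hW (hv.pow 2) ((Pg.const _).mul hv), av_const_mul, ← hm]
  ring

/-- third derivative of the log-Laplace transform on a line = third central moment -/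
theorem hasDerivAt_c2 {W : E → ℝ} {a C : ℝ} (hW : Gr W a C) (y v : E) (t : ℝ) :
    HasDerivAt (fun t : ℝ => c2 W (y + t • v) v) (c3 W (y + t • v) v) t := by
  have h0 : (fun t : ℝ => c2 W (y + t • v) v) = fun t => av W (y + t • v) (fun x => ⟪x, v⟫ ^ 2)
      - (av W (y + t • v) (fun x => ⟪x, v⟫)) ^ 2 := funext fun t => c2_eq hW _ _
  rw [h0]
  have hv := Pg.inner (E := E) v
  have h1 := hasDerivAt_av hW (hv.pow 2) y v t
  have h2 := (hasDerivAt_m1 hW y v t).pow 2
  have h3 := h1.sub h2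
  refine HasDerivAt.congr_deriv h3 ?_
  rw [c3_eq hW, c2_eq hW]
  set m := av W (y + t • v) (fun x => ⟪x, v⟫) with hm
  have h4 : (fun x : E => (⟪x, v⟫ - m) • ⟪x, v⟫ ^ 2)
      = fun x => ⟪x, v⟫ ^ 3 - m * ⟪x, v⟫ ^ 2 := by
    funext x; simp only [smul_eq_mul]; ring
  rw [h4, av_sub hW (hv.pow 3) ((Pg.const _).mul (hv.pow 2)), av_const_mul]
  ring

theorem c2_nonneg {W : E → ℝ} {a C : ℝ} (hW : Gr W a C) (y v : E) : 0 ≤ c2 W y v :=
  av_nonneg hW y fun _ => sq_nonneg _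

end

end Vale.Agent.P227.M.LL.Sm

namespace Vale.Agent.P227.M.LL

export Sm (Gr Pg I Z Lam av pow_exp_le integrable_gauss K bd aesm integrable up up_apply norm_up_le Pg.up hasFDerivAt_I contDiff_I contDiff_I_infty Pg.const Pg.id Pg.inner Pg.add Pg.smul Pg.mul Pg.pow Pg.neg Pg.sub Z_eq_I integrable_exp Z_pos contDiff_Z contDiff_Lam contDiff_av I_add I_sub I_smul av_add av_sub av_smul av_const_mul av_one av_const av_mono av_nonneg I_up_apply hasDerivAt_I hasDerivAt_Z hasDerivAt_Lam hasDerivAt_av c2 c3 c2_eq c3_eq hasDerivAt_m1 hasDerivAt_c2 c2_nonneg)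

end Vale.Agent.P227.M.LL
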