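import Vale.Agent.P227.M.Defs

/-! P227, block LL: Hessian, lines, Taylor bounds. -/

set_option autoImplicit false

open MeasureTheory Filter Topology

namespace Vale.Agent.P227.M.LL

variable {n : ℕ}

theorem sum_ei (z : E n) : ∑ i, z i • ei i = z := by
  have h := (EuclideanSpace.basisFun (Fin n) ℝ).sum_repr z
  simpa [ei, EuclideanSpace.basisFun_apply, EuclideanSpace.basisFun_repr] using h

theorem pd_pd {f : E n → ℝ} (hf : ContDiff ℝ 2 f) (i j : Fin n) (p : E n) :
    pd i (pd j f) p = fderiv ℝ (fderiv ℝ f) p (ei i) (ei j) := by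
  have h1 : Differentiable ℝ (fderiv ℝ f) :=
    (hf.fderiv_right (m := 1) (by norm_num)).differentiable (by norm_num)
  have h2 : HasFDerivAt (pd j f)
      ((ContinuousLinearMap.apply ℝ ℝ (ei j : E n)).comp (fderiv ℝ (fderiv ℝ f) p)) p := by
    exact (ContinuousLinearMap.apply ℝ ℝ (ei j : E n)).hasFDerivAt.comp p (h1 p).hasFDerivAt
  change fderiv ℝ (pd j f) p (ei i) = _
  rw [h2.fderiv]
  rfl

theorem qf_hess {f : E n → ℝ} (hf : ContDiff ℝ 2 f) (p v : E n) :
    qf (hess f p) v = fderiv ℝ (fderiv ℝ f) p v v := by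
  set D := fderiv ℝ (fderiv ℝ f) p with hD
  have h0 : ∀ u : E n, D v u = ∑ i, v i * D (ei i) u := by
    intro u
    conv_lhs => rw [← sum_ei v, map_sum]
    rw [ContinuousLinearMap.sum_apply]
    exact Finset.sum_congr rfl fun i _ => by rw [map_smul]; rfl
  have h1 : ∀ i, D (ei i) v = ∑ j, v j * D (ei i) (ei j) := by
    intro i
    conv_lhs => rw [← sum_ei v, map_sum]
    exact Finset.sum_congr rfl fun j _ => by rw [map_smul]; rfl
  rw [h0]
  unfold qf hess
  refine Finset.sum_congr rfl fun i _ => ?_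
  rw [h1, Finset.mul_sum]
  refine Finset.sum_congr rfl fun j _ => ?_
  rw [pd_pd hf]
  ring

theorem line_one {f : E n → ℝ} (hf : ContDiff ℝ 2 f) (x v : E n) (t : ℝ) :
    HasDerivAt (fun t : ℝ => f (x + t • v)) (fderiv ℝ f (x + t • v) v) t := by
  have h1 : HasDerivAt (fun t : ℝ => x + t • v) v t := by
    simpa using ((hasDerivAt_id t).smul_const v).const_add x
  have h2 : Differentiable ℝ f := hf.differentiable (by norm_num)
  exact (h2 (x + t • v)).hasFDerivAt.comp_hasDerivAt t h1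

theorem line_two {f : E n → ℝ} (hf : ContDiff ℝ 2 f) (x v : E n) (t : ℝ) :
    HasDerivAt (fun t : ℝ => fderiv ℝ f (x + t • v) v) (qf (hess f (x + t • v)) v) t := by
  have h1 : HasDerivAt (fun t : ℝ => x + t • v) v t := by
    simpa using ((hasDerivAt_id t).smul_const v).const_add x
  have h2 : Differentiable ℝ (fderiv ℝ f) :=
    (hf.fderiv_right (m := 1) (by norm_num)).differentiable (by norm_num)
  have h3 := (h2 (x + t • v)).hasFDerivAt.comp_hasDerivAt t h1
  have h4 := (ContinuousLinearMap.apply ℝ ℝ v).hasFDerivAt.comp_hasDerivAt t h3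
  rw [qf_hess hf]
  exact h4

/-- one-dimensional Taylor lower bound -/
theorem taylor_real {f f1 f2 : ℝ → ℝ} (h1 : ∀ t, HasDerivAt f (f1 t) t)
    (h2 : ∀ t, HasDerivAt f1 (f2 t) t) {a : ℝ} (ha : ∀ t, a ≤ f2 t) :
    f 0 + f1 0 + a / 2 ≤ f 1 := by
  have hm : Monotone fun t => f1 t - a * t := by
    have hd : ∀ t, HasDerivAt (fun t => f1 t - a * t) (f2 t - a) t := by
      intro t
      have h3 := (h2 t).sub ((hasDerivAt_id t).const_mul a)
      rw [mul_one] at h3
      exact h3
    refine monotone_of_deriv_nonneg (fun t => (hd t).differentiableAt) fun t => ?_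
    rw [(hd t).deriv]
    linarith [ha t]
  have hd2 : ∀ t, HasDerivAt (fun t => f t - f1 0 * t - a / 2 * t ^ 2) (f1 t - f1 0 - a * t) t := by
    intro t
    have h3 := ((h1 t).sub ((hasDerivAt_id t).const_mul (f1 0))).sub
      ((hasDerivAt_pow 2 t).const_mul (a / 2))
    refine HasDerivAt.congr_deriv h3 ?_
    simp
    ring
  have hm2 : MonotoneOn (fun t => f t - f1 0 * t - a / 2 * t ^ 2) (Set.Ici (0 : ℝ)) := by
    refine monotoneOn_of_deriv_nonneg (convex_Ici 0)
      (fun t _ => (hd2 t).continuousAt.continuousWithinAt)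
      (fun t _ => (hd2 t).differentiableAt.differentiableWithinAt) fun t ht => ?_
    rw [(hd2 t).deriv]
    rw [interior_Ici] at ht
    have := hm (le_of_lt ht)
    simp only [mul_zero, sub_zero] at this
    linarith
  have := hm2 (Set.mem_Ici.2 le_rfl) (Set.mem_Ici.2 zero_le_one) zero_le_one
  simp only [mul_zero, sub_zero, mul_one, one_pow] at this
  norm_num at this
  linarith

theorem reg_two {W : E n → ℝ} {c C : ℝ} (h : Reg W c C) : ContDiff ℝ 2 W := by
  exact_mod_cast (contDiff_infty.1 h.smooth 2)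

theorem taylor_lower {W : E n → ℝ} {c C : ℝ} (h : Reg W c C) (x z : E n) :
    W x + fderiv ℝ W x z + c / 2 * ‖z‖ ^ 2 ≤ W (x + z) := by
  have hs : ContDiff ℝ 2 W := reg_two h
  have := taylor_real (f := fun t : ℝ => W (x + t • z)) (line_one hs x z) (line_two hs x z)
    (a := c * ‖z‖ ^ 2) fun t => h.lower _ _
  simp only [zero_smul, add_zero, one_smul] at this
  linarith

theorem taylor_upper {W : E n → ℝ} {c C : ℝ} (h : Reg W c C) (x z : E n) :
    W (x + z) ≤ W x + fderiv ℝ W x z + C / 2 * ‖z‖ ^ 2 := by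
  have hs : ContDiff ℝ 2 W := reg_two h
  have := taylor_real (f := fun t : ℝ => -W (x + t • z)) (fun t => (line_one hs x z t).neg)
    (fun t => (line_two hs x z t).neg) (a := -(C * ‖z‖ ^ 2)) fun t => neg_le_neg (h.upper _ _)
  simp only [zero_smul, add_zero, one_smul] at this
  linarith

/-- supporting hyperplanes give convexity -/
theorem convex_of_support {F : Type*} [AddCommGroup F] [Module ℝ F] {u : F → ℝ}
    (l : F → F →ₗ[ℝ] ℝ) (h : ∀ x y, u x + l x (y - x) ≤ u y) : ConvexOn ℝ Set.univ u := by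
  refine ⟨convex_univ, fun x _ y _ s t hs ht hst => ?_⟩
  set p := s • x + t • y with hp
  have h1 := mul_le_mul_of_nonneg_left (h p x) hs
  have h2 := mul_le_mul_of_nonneg_left (h p y) ht
  have h3 : s * l p (x - p) + t * l p (y - p) = 0 := by
    have : s • (x - p) + t • (y - p) = 0 := by
      rw [smul_sub, smul_sub, sub_add_sub_comm, ← add_smul, hst, one_smul, ← hp, sub_self]
    rw [← smul_eq_mul, ← smul_eq_mul, ← map_smul, ← map_smul, ← map_add, this, map_zero]
  have h4 : u p = s * u p + t * u p := by rw [← add_mul, hst, one_mul]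
  simp only [smul_eq_mul]
  rw [h4]
  nlinarith [h1, h2, h3]

theorem convex_lower {W : E n → ℝ} {c C : ℝ} (h : Reg W c C) :
    ConvexOn ℝ Set.univ fun x => W x - c / 2 * ‖x‖ ^ 2 := by
  refine convex_of_support (fun x => ((fderiv ℝ W x - c • innerSL ℝ x : E n →L[ℝ] ℝ) : E n →ₗ[ℝ] ℝ))
    fun x y => ?_
  have h1 := taylor_lower h x (y - x)
  have h2 : ‖y‖ ^ 2 = ‖x‖ ^ 2 + 2 * inner ℝ x (y - x) + ‖y - x‖ ^ 2 := by
    have := norm_add_sq_real x (y - x)
    rwa [add_sub_cancel] at this
  rw [add_sub_cancel] at h1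
  have h3 : (((fderiv ℝ W x - c • innerSL ℝ x : E n →L[ℝ] ℝ) : E n →ₗ[ℝ] ℝ)) (y - x) =
      fderiv ℝ W x (y - x) - c * inner ℝ x (y - x) := by
    simp
  rw [h3, h2]
  nlinarith [h1]

theorem convex_upper {W : E n → ℝ} {c C : ℝ} (h : Reg W c C) :
    ConvexOn ℝ Set.univ fun x => C / 2 * ‖x‖ ^ 2 - W x := by
  refine convex_of_support (fun x => ((C • innerSL ℝ x - fderiv ℝ W x : E n →L[ℝ] ℝ) : E n →ₗ[ℝ] ℝ))
    fun x y => ?_
  have h1 := taylor_upper h x (y - x)
  have h2 : ‖y‖ ^ 2 = ‖x‖ ^ 2 + 2 * inner ℝ x (y - x) + ‖y - x‖ ^ 2 := by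
    have := norm_add_sq_real x (y - x)
    rwa [add_sub_cancel] at this
  rw [add_sub_cancel] at h1
  have h3 : (((C • innerSL ℝ x - fderiv ℝ W x : E n →L[ℝ] ℝ) : E n →ₗ[ℝ] ℝ)) (y - x) =
      C * inner ℝ x (y - x) - fderiv ℝ W x (y - x) := by
    simp
  rw [h3, h2]
  nlinarith [h1]

/-- a convex `C²` function has nonnegative second derivatives -/
theorem qf_nonneg_of_convex {f : E n → ℝ} (hf : ContDiff ℝ 2 f) (hc : ConvexOn ℝ Set.univ f)
    (x v : E n) : 0 ≤ qf (hess f x) v := by
  have hg : ConvexOn ℝ Set.univ fun t : ℝ => f (x + t • v) := by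
    have h1 : ConvexOn ℝ Set.univ fun z : E n => f (x + z) := by
      have := hc.translate_right x
      simpa [Function.comp_def] using this
    exact h1.comp_linearMap (LinearMap.toSpanSingleton ℝ (E n) v)
  have hd := fun t => line_one hf x v t
  have hm : Monotone (fun t : ℝ => fderiv ℝ f (x + t • v) v) := by
    have h1 := hg.monotoneOn_deriv fun t _ => (hd t).differentiableAt
    have h2 : deriv (fun t : ℝ => f (x + t • v)) = fun t : ℝ => fderiv ℝ f (x + t • v) v :=
      funext fun t => (hd t).deriv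
    rw [h2] at h1
    exact fun a b hab => h1 (Set.mem_univ a) (Set.mem_univ b) hab
  have h3 := hm.deriv_nonneg (x := (0 : ℝ))
  rw [(line_two hf x v 0).deriv] at h3
  simpa using h3

end Vale.Agent.P227.M.LL
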