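import Vale.Agent.P227.M.Defs

/-! # Line restrictions: Hessian bounds versus convexity (for `pd`, `hess`, `qf` of `M/Defs`) -/

open MeasureTheory Set Real
open scoped Topology RealInnerProductSpace

namespace Vale.Agent.P227.M.RegLap

variable {n : ℕ}

/-- a vector is the sum of its coordinates -/
theorem rl_sum (v : E n) : v = ∑ i, v i • (ei i : E n) := by
  ext j
  simp [ei, Pi.single_apply]

/-- first derivative along a line -/
theorem rl_d1 {W : E n → ℝ} (hW : Differentiable ℝ W) (x v : E n) (t : ℝ) :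
    HasDerivAt (fun t : ℝ => W (x + t • v)) (fderiv ℝ W (x + t • v) v) t := by
  have h1 : HasDerivAt (fun t : ℝ => x + t • v) v t := by
    simpa using ((hasDerivAt_id t).smul_const v).const_add x
  exact (hW (x + t • v)).hasFDerivAt.comp_hasDerivAt t h1

theorem rl_fderiv_apply {W : E n → ℝ} (p v : E n) :
    fderiv ℝ W p v = ∑ j, v j * pd j W p := by
  conv_lhs => rw [rl_sum v]
  rw [map_sum]
  refine Finset.sum_congr rfl fun j _ => ?_
  rw [map_smul, smul_eq_mul, pd]

/-- second derivative along a line -/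
theorem rl_d2 {W : E n → ℝ} (hW : ContDiff ℝ 2 W) (x v : E n) (t : ℝ) :
    HasDerivAt (fun t : ℝ => fderiv ℝ W (x + t • v) v) (qf (hess W (x + t • v)) v) t := by
  have hpd : ∀ j : Fin n, Differentiable ℝ (pd j W) := by
    intro j
    have h1 : ContDiff ℝ 1 (fderiv ℝ W) := hW.fderiv_right (by norm_num)
    exact (h1.clm_apply contDiff_const).differentiable one_ne_zero
  have h1 : ∀ j : Fin n, HasDerivAt (fun t : ℝ => v j * pd j W (x + t • v))
      (v j * fderiv ℝ (pd j W) (x + t • v) v) t := fun j => (rl_d1 (hpd j) x v t).const_mul (v j)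
  have h2 := HasDerivAt.fun_sum (u := Finset.univ) (fun j _ => h1 j)
  have h3 : (fun t : ℝ => fderiv ℝ W (x + t • v) v) =
      fun t : ℝ => ∑ j, v j * pd j W (x + t • v) := by
    funext s
    exact rl_fderiv_apply _ _
  rw [h3]
  have h4 : qf (hess W (x + t • v)) v = ∑ j, v j * fderiv ℝ (pd j W) (x + t • v) v := by
    unfold qf
    rw [Finset.sum_comm]
    refine Finset.sum_congr rfl fun j _ => ?_
    rw [rl_fderiv_apply, Finset.mul_sum]
    refine Finset.sum_congr rfl fun i _ => ?_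
    unfold hess
    ring
  rw [h4]
  exact h2

/-- convexity from lines -/
theorem rl_convex_of_lines {f : E n → ℝ}
    (h : ∀ x v : E n, ConvexOn ℝ univ (fun t : ℝ => f (x + t • v))) : ConvexOn ℝ univ f := by
  refine ⟨convex_univ, fun x _ y _ a b ha hb hab => ?_⟩
  have h1 := (h x (y - x)).2 (mem_univ 0) (mem_univ 1) ha hb hab
  have h2 : a • x + b • y = x + b • (y - x) := by
    have : a = 1 - b := by linarith
    subst this
    module
  rw [h2]
  simpa using h1

/-- one dimension: nonnegative second derivative gives convexity -/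
theorem rl_conv1 {g g1 g2 : ℝ → ℝ} (h1 : ∀ t, HasDerivAt g (g1 t) t)
    (h2 : ∀ t, HasDerivAt g1 (g2 t) t) (hn : ∀ t, 0 ≤ g2 t) : ConvexOn ℝ univ g := by
  have hm : Monotone g1 := monotone_of_deriv_nonneg (fun t => (h2 t).differentiableAt)
    (fun t => by rw [(h2 t).deriv]; exact hn t)
  have hd : deriv g = g1 := funext fun t => (h1 t).deriv
  refine Monotone.convexOn_univ_of_deriv (fun t => (h1 t).differentiableAt) ?_
  rw [hd]
  exact hm

/-- one dimension: convexity gives a nonnegative second derivative -/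
theorem rl_conv1' {g g1 g2 : ℝ → ℝ} (h1 : ∀ t, HasDerivAt g (g1 t) t)
    (h2 : ∀ t, HasDerivAt g1 (g2 t) t) (hc : ConvexOn ℝ univ g) (t : ℝ) : 0 ≤ g2 t := by
  have hd : deriv g = g1 := funext fun t => (h1 t).deriv
  have hm : Monotone g1 := by
    have h := hc.monotoneOn_deriv (fun t _ => (h1 t).differentiableAt)
    rw [hd] at h
    exact fun a b hab => h (mem_univ a) (mem_univ b) hab
  exact (h2 t).nonneg_of_monotone hm

/-- one dimension: Taylor lower bound -/
theorem rl_taylor {g g1 g2 : ℝ → ℝ} {m : ℝ} (h1 : ∀ t, HasDerivAt g (g1 t) t)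
    (h2 : ∀ t, HasDerivAt g1 (g2 t) t) (hn : ∀ t, m ≤ g2 t) : g 0 + g1 0 + m / 2 ≤ g 1 := by
  have hm : Monotone (fun t => g1 t - m * t) := by
    refine monotone_of_deriv_nonneg (fun t => ((h2 t).sub ((hasDerivAt_id t).const_mul m)).differentiableAt)
      (fun t => ?_)
    have := ((h2 t).sub ((hasDerivAt_id t).const_mul m)).deriv
    rw [show (fun t => g1 t - m * t) = (g1 - fun y => m * id y) from rfl, this]
    linarith [hn t]
  have hq : ∀ t, HasDerivAt (fun t => g t - g1 0 * t - m / 2 * t ^ 2) (g1 t - g1 0 - m * t) t := by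
    intro t
    have h3 := ((h1 t).sub ((hasDerivAt_id t).const_mul (g1 0))).sub
      (((hasDerivAt_id t).pow 2).const_mul (m / 2))
    have h4 : g1 t - g1 0 * 1 - m / 2 * ((2 : ℕ) * id t ^ (2 - 1) * 1) = g1 t - g1 0 - m * t := by
      simp only [id, Nat.cast_ofNat]
      ring
    rw [h4] at h3
    exact h3
  have hmo : MonotoneOn (fun t => g t - g1 0 * t - m / 2 * t ^ 2) (Icc 0 1) := by
    refine monotoneOn_of_deriv_nonneg (convex_Icc 0 1)
      (fun t _ => (hq t).continuousAt.continuousWithinAt)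
      (fun t _ => (hq t).differentiableAt.differentiableWithinAt) (fun t ht => ?_)
    rw [(hq t).deriv]
    rw [interior_Icc] at ht
    have := hm ht.1.le
    simp only [mul_zero, sub_zero] at this
    linarith
  have := hmo (left_mem_Icc.2 zero_le_one) (right_mem_Icc.2 zero_le_one) zero_le_one
  simp only [mul_zero, sub_zero, mul_one, one_pow] at this
  norm_num at this
  linarith

theorem rl_sq_d1 (x v : E n) (t : ℝ) :
    HasDerivAt (fun t : ℝ => ‖x + t • v‖ ^ 2) (2 * ⟪x + t • v, v⟫) t := by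
  have h1 : HasDerivAt (fun t : ℝ => x + t • v) v t := by
    simpa using ((hasDerivAt_id t).smul_const v).const_add x
  have h2 := h1.norm_sq
  convert h2 using 1

theorem rl_sq_d2 (x v : E n) (t : ℝ) :
    HasDerivAt (fun t : ℝ => 2 * ⟪x + t • v, v⟫) (2 * ‖v‖ ^ 2) t := by
  have h1 : HasDerivAt (fun t : ℝ => x + t • v) v t := by
    simpa using ((hasDerivAt_id t).smul_const v).const_add x
  have h2 := (h1.inner ℝ (hasDerivAt_const t v)).const_mul 2
  have h3 : (2 : ℝ) * (⟪x + t • v, (0 : E n)⟫ + ⟪v, v⟫) = 2 * ‖v‖ ^ 2 := by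
    rw [inner_zero_right, zero_add, real_inner_self_eq_norm_sq]
  rw [h3] at h2
  exact h2

/-- lower Hessian bound gives convexity of `W - c/2 ‖x‖²` -/
theorem rl_convex_lower {W : E n → ℝ} {c : ℝ} (hW : ContDiff ℝ 2 W)
    (h : ∀ x v, c * ‖v‖ ^ 2 ≤ qf (hess W x) v) :
    ConvexOn ℝ univ (fun x => W x - c / 2 * ‖x‖ ^ 2) := by
  refine rl_convex_of_lines fun x v => ?_
  refine rl_conv1
    (g1 := fun t => fderiv ℝ W (x + t • v) v - c / 2 * (2 * ⟪x + t • v, v⟫))
    (g2 := fun t => qf (hess W (x + t • v)) v - c / 2 * (2 * ‖v‖ ^ 2))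
    (fun t => (rl_d1 (hW.differentiable (by norm_num)) x v t).sub ((rl_sq_d1 x v t).const_mul _))
    (fun t => (rl_d2 hW x v t).sub ((rl_sq_d2 x v t).const_mul _)) (fun t => ?_)
  have := h (x + t • v) v
  linarith

/-- upper Hessian bound gives convexity of `C/2 ‖x‖² - W` -/
theorem rl_convex_upper {W : E n → ℝ} {C : ℝ} (hW : ContDiff ℝ 2 W)
    (h : ∀ x v, qf (hess W x) v ≤ C * ‖v‖ ^ 2) :
    ConvexOn ℝ univ (fun x => C / 2 * ‖x‖ ^ 2 - W x) := by
  refine rl_convex_of_lines fun x v => ?_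
  refine rl_conv1
    (g1 := fun t => C / 2 * (2 * ⟪x + t • v, v⟫) - fderiv ℝ W (x + t • v) v)
    (g2 := fun t => C / 2 * (2 * ‖v‖ ^ 2) - qf (hess W (x + t • v)) v)
    (fun t => ((rl_sq_d1 x v t).const_mul _).sub (rl_d1 (hW.differentiable (by norm_num)) x v t))
    (fun t => ((rl_sq_d2 x v t).const_mul _).sub (rl_d2 hW x v t)) (fun t => ?_)
  have := h (x + t • v) v
  linarith

/-- convexity of a function along lines -/
theorem rl_line_convex {f : E n → ℝ} (hf : ConvexOn ℝ univ f) (x v : E n) :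
    ConvexOn ℝ univ (fun t : ℝ => f (x + t • v)) := by
  refine ⟨convex_univ, fun s _ t _ a b ha hb hab => ?_⟩
  have h1 := hf.2 (mem_univ (x + s • v)) (mem_univ (x + t • v)) ha hb hab
  have h2 : a • (x + s • v) + b • (x + t • v) = x + (a • s + b • t) • v := by
    have : a = 1 - b := by linarith
    subst this
    simp only [smul_eq_mul]
    module
  rw [h2] at h1
  exact h1

/-- converse of `rl_convex_lower` -/
theorem rl_lower_of_convex {W : E n → ℝ} {c : ℝ} (hW : ContDiff ℝ 2 W)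
    (h : ConvexOn ℝ univ (fun x => W x - c / 2 * ‖x‖ ^ 2)) (x v : E n) :
    c * ‖v‖ ^ 2 ≤ qf (hess W x) v := by
  have h0 := rl_conv1'
    (g1 := fun t => fderiv ℝ W (x + t • v) v - c / 2 * (2 * ⟪x + t • v, v⟫))
    (g2 := fun t => qf (hess W (x + t • v)) v - c / 2 * (2 * ‖v‖ ^ 2))
    (fun t => (rl_d1 (hW.differentiable (by norm_num)) x v t).sub ((rl_sq_d1 x v t).const_mul _))
    (fun t => (rl_d2 hW x v t).sub ((rl_sq_d2 x v t).const_mul _)) (rl_line_convex h x v) 0
  simp only [zero_smul, add_zero] at h0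
  linarith

/-- converse of `rl_convex_upper` -/
theorem rl_upper_of_convex {W : E n → ℝ} {C : ℝ} (hW : ContDiff ℝ 2 W)
    (h : ConvexOn ℝ univ (fun x => C / 2 * ‖x‖ ^ 2 - W x)) (x v : E n) :
    qf (hess W x) v ≤ C * ‖v‖ ^ 2 := by
  have h0 := rl_conv1'
    (g1 := fun t => C / 2 * (2 * ⟪x + t • v, v⟫) - fderiv ℝ W (x + t • v) v)
    (g2 := fun t => C / 2 * (2 * ‖v‖ ^ 2) - qf (hess W (x + t • v)) v)
    (fun t => ((rl_sq_d1 x v t).const_mul _).sub (rl_d1 (hW.differentiable (by norm_num)) x v t))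
    (fun t => ((rl_sq_d2 x v t).const_mul _).sub (rl_d2 hW x v t)) (rl_line_convex h x v) 0
  simp only [zero_smul, add_zero] at h0
  linarith

/-- Taylor lower bound -/
theorem rl_taylor_lower {W : E n → ℝ} {c : ℝ} (hW : ContDiff ℝ 2 W)
    (h : ∀ x v, c * ‖v‖ ^ 2 ≤ qf (hess W x) v) (p z : E n) :
    W p + fderiv ℝ W p z + c / 2 * ‖z‖ ^ 2 ≤ W (p + z) := by
  have h0 := rl_taylor (m := c * ‖z‖ ^ 2)
    (fun t => rl_d1 (hW.differentiable (by norm_num)) p z t) (fun t => rl_d2 hW p z t)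
    (fun t => h (p + t • z) z)
  simp only [zero_smul, add_zero, one_smul] at h0
  linarith

/-- Taylor upper bound -/
theorem rl_taylor_upper {W : E n → ℝ} {C : ℝ} (hW : ContDiff ℝ 2 W)
    (h : ∀ x v, qf (hess W x) v ≤ C * ‖v‖ ^ 2) (p z : E n) :
    W (p + z) ≤ W p + fderiv ℝ W p z + C / 2 * ‖z‖ ^ 2 := by
  have h0 := rl_taylor (m := -(C * ‖z‖ ^ 2))
    (fun t => (rl_d1 (hW.differentiable (by norm_num)) p z t).neg)
    (fun t => (rl_d2 hW p z t).neg) (fun t => by
      have := h (p + t • z) z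
      linarith)
  simp only [zero_smul, add_zero, one_smul, Pi.neg_apply] at h0
  linarith

end Vale.Agent.P227.M.RegLap
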