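import Vale.Agent.P227.M.LL.RegA
import Vale.Agent.P227.M.LL.RegLine
import Vale.Agent.P227.M.LK.HbE

/-! # `Reg W c C → Reg (logLap W) C⁻¹ c⁻¹` -/

open MeasureTheory Set Real
open scoped Topology RealInnerProductSpace

namespace Vale.Agent.P227.M.RegLap

variable {n : ℕ}

theorem rg_C2' {W : E n → ℝ} (h : ContDiff ℝ (⊤ : ℕ∞) W) : ContDiff ℝ 2 W := by
  simpa using contDiff_infty.1 h 2

theorem rg_C2 {W : E n → ℝ} {c C : ℝ} (h : Reg W c C) : ContDiff ℝ 2 W := rg_C2' h.smooth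

/-- quadratic lower bound -/
theorem rg_GW {W : E n → ℝ} {c C : ℝ} (h : Reg W c C) :
    GW W (c / 4) (‖fderiv ℝ W 0‖ ^ 2 / c - W 0) := by
  have hc := h.c_pos
  refine ⟨by positivity, h.smooth.continuous, fun x => ?_⟩
  have h1 := rl_taylor_lower (rg_C2 h) h.lower 0 x
  rw [zero_add] at h1
  have h2 : -(‖fderiv ℝ W 0‖ * ‖x‖) ≤ fderiv ℝ W 0 x := by
    have := (fderiv ℝ W 0).le_opNorm x
    rw [Real.norm_eq_abs] at this
    exact (abs_le.1 this).1
  have h3 : ‖fderiv ℝ W 0‖ * ‖x‖ ≤ c / 4 * ‖x‖ ^ 2 + ‖fderiv ℝ W 0‖ ^ 2 / c := by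
    have h4 : 0 ≤ (c * ‖x‖ / 2 - ‖fderiv ℝ W 0‖) ^ 2 / c := by positivity
    have h5 : (c * ‖x‖ / 2 - ‖fderiv ℝ W 0‖) ^ 2 / c =
        c / 4 * ‖x‖ ^ 2 - ‖fderiv ℝ W 0‖ * ‖x‖ + ‖fderiv ℝ W 0‖ ^ 2 / c := by
      field_simp
      ring
    linarith
  linarith

/-- critical point of `W - ⟪·, y⟫` -/
theorem rg_crit {W : E n → ℝ} {c C : ℝ} (h : Reg W c C) (y : E n) :
    ∃ p : E n, ∀ z, fderiv ℝ W p z = ⟪z, y⟫ := by
  have hc := h.c_pos
  have hg := rg_GW h
  set b := ‖fderiv ℝ W 0‖ ^ 2 / c - W 0 with hb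
  have hcont : Continuous (fun x => W x - ⟪x, y⟫) :=
    h.smooth.continuous.sub (continuous_id.inner continuous_const)
  have hlow : ∀ x, ‖x‖ - (b + (‖y‖ + 1) ^ 2 / c) ≤ W x - ⟪x, y⟫ := by
    intro x
    have h1 := hg.lower x
    have h2 : ⟪x, y⟫ ≤ ‖x‖ * ‖y‖ := real_inner_le_norm x y
    have h4 : 0 ≤ (c * ‖x‖ / 2 - (‖y‖ + 1)) ^ 2 / c := by positivity
    have h5 : (c * ‖x‖ / 2 - (‖y‖ + 1)) ^ 2 / c =
        c / 4 * ‖x‖ ^ 2 - (‖y‖ + 1) * ‖x‖ + (‖y‖ + 1) ^ 2 / c := by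
      field_simp
      ring
    nlinarith
  have hlim : Filter.Tendsto (fun x => W x - ⟪x, y⟫) (Filter.cocompact (E n)) Filter.atTop := by
    refine Filter.tendsto_atTop_mono hlow ?_
    exact Filter.tendsto_atTop_add_const_right _ _ tendsto_norm_cocompact_atTop
  obtain ⟨p, hp⟩ := hcont.exists_forall_le hlim
  refine ⟨p, fun z => ?_⟩
  have hmin : IsLocalMin (fun x => W x - ⟪x, y⟫) p := Filter.Eventually.of_forall hp
  have hd : HasFDerivAt (fun x => W x - ⟪x, y⟫) (fderiv ℝ W p - innerSL ℝ y) p := by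
    have h1 : HasFDerivAt W (fderiv ℝ W p) p :=
      ((rg_C2 h).differentiable (by norm_num) p).hasFDerivAt
    have h2 : HasFDerivAt (fun x : E n => ⟪x, y⟫) (innerSL ℝ y) p := by
      have := (innerSL ℝ y).hasFDerivAt (x := p)
      refine this.congr_of_eventuallyEq (Filter.Eventually.of_forall fun x => ?_)
      simp [real_inner_comm]
    exact h1.sub h2
  have h0 := hmin.hasFDerivAt_eq_zero hd
  have h1 : (fderiv ℝ W p - innerSL ℝ y) z = 0 := by rw [h0]; rfl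
  have h2 : (innerSL ℝ y) z = ⟪z, y⟫ := by simp [real_inner_comm]
  have h3 : (fderiv ℝ W p - innerSL ℝ y) z = fderiv ℝ W p z - (innerSL ℝ y) z := rfl
  rw [h3, h2] at h1
  linarith

/-- the potential recentred at the critical point -/
noncomputable def rc (W : E n → ℝ) (p y z : E n) : ℝ := W (p + z) - W p - ⟪z, y⟫

theorem rg_rc_lower {W : E n → ℝ} {c C : ℝ} (h : Reg W c C) {p y : E n}
    (hp : ∀ z, fderiv ℝ W p z = ⟪z, y⟫) (z : E n) : c / 2 * ‖z‖ ^ 2 ≤ rc W p y z := by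
  have := rl_taylor_lower (rg_C2 h) h.lower p z
  rw [hp] at this
  unfold rc
  linarith

theorem rg_rc_upper {W : E n → ℝ} {c C : ℝ} (h : Reg W c C) {p y : E n}
    (hp : ∀ z, fderiv ℝ W p z = ⟪z, y⟫) (z : E n) : rc W p y z ≤ C / 2 * ‖z‖ ^ 2 := by
  have := rl_taylor_upper (rg_C2 h) h.upper p z
  rw [hp] at this
  unfold rc
  linarith

theorem rg_rc_GW {W : E n → ℝ} {c C : ℝ} (h : Reg W c C) {p y : E n}
    (hp : ∀ z, fderiv ℝ W p z = ⟪z, y⟫) : GW (rc W p y) (c / 2) 0 := by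
  refine ⟨half_pos h.c_pos, ?_, fun z => by rw [sub_zero]; exact rg_rc_lower h hp z⟩
  unfold rc
  exact ((h.smooth.continuous.comp (continuous_const.add continuous_id)).sub continuous_const).sub
    (continuous_id.inner continuous_const)

/-- the constant weight has polynomial growth -/
theorem rg_one_pgr : PGr (fun _ : E n => (1 : ℝ)) :=
  ⟨continuous_const, 0, 1, fun x => by simp⟩

theorem rg_pow_pgr (k : ℕ) : PGr (fun x : E n => ‖x‖ ^ k) := by
  refine ⟨by fun_prop, k, 1, fun x => ?_⟩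
  rw [one_mul, Real.norm_of_nonneg (by positivity)]
  exact pow_le_pow_left₀ (norm_nonneg _) (by linarith) k

theorem rg_lapI_one {W : E n → ℝ} (y : E n) :
    lapI W (fun _ => (1 : ℝ)) y = ∫ x, Real.exp (⟪x, y⟫ - W x) := by
  simp [lapI]

theorem rg_int {W : E n → ℝ} {a b : ℝ} (hW : GW W a b) (y : E n) :
    Integrable (fun x => Real.exp (⟪x, y⟫ - W x)) := by
  simpa using ra_integrable hW rg_one_pgr y

theorem rg_pos {W : E n → ℝ} {a b : ℝ} (hW : GW W a b) (y : E n) :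
    0 < ∫ x, Real.exp (⟪x, y⟫ - W x) := integral_exp_pos (rg_int hW y)

/-- smoothness -/
theorem rg_smooth {W : E n → ℝ} {a b : ℝ} (hW : GW W a b) :
    ContDiff ℝ (⊤ : ℕ∞) (logLap W) := by
  have h1 : ContDiff ℝ (⊤ : ℕ∞) (lapI W (fun _ => (1 : ℝ))) := lapI_contDiff hW rg_one_pgr
  have h2 : logLap W = fun y => Real.log (lapI W (fun _ => (1 : ℝ)) y) := by
    funext y
    rw [rg_lapI_one]
    rfl
  rw [h2]
  exact h1.log fun y => by
    rw [rg_lapI_one]
    exact (rg_pos hW y).ne'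

/-- recentring -/
theorem rg_shift {W : E n → ℝ} {c C : ℝ} (h : Reg W c C) {p y : E n}
    (hp : ∀ z, fderiv ℝ W p z = ⟪z, y⟫) (k : E n) :
    logLap W (y + k) = (⟪p, k⟫ + (⟪p, y⟫ - W p)) +
      (Real.log ∘ lapI (rc W p y) (fun _ => (1 : ℝ))) k := by
  have h1 : ∫ x, Real.exp (⟪x, y + k⟫ - W x) =
      Real.exp (⟪p, k⟫ + (⟪p, y⟫ - W p)) * ∫ z, Real.exp (⟪z, k⟫ - rc W p y z) := by
    rw [← integral_add_left_eq_self (fun x => Real.exp (⟪x, y + k⟫ - W x)) p,
      ← integral_const_mul]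
    refine integral_congr_ae (ae_of_all _ fun z => ?_)
    simp only
    rw [← Real.exp_add]
    congr 1
    unfold rc
    rw [inner_add_left, inner_add_right, inner_add_right]
    ring
  have h2 := rg_pos (rg_rc_GW h hp) k
  rw [Function.comp_apply, rg_lapI_one]
  unfold logLap
  rw [h1, Real.log_mul (Real.exp_pos _).ne' h2.ne', Real.log_exp]

/-- all derivatives of `log` are bounded on a compact interval of `(0, ∞)` -/
theorem rg_log_bdd {m0 M0 : ℝ} (hm : 0 < m0) (k : ℕ) :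
    ∃ B : ℝ, 0 ≤ B ∧ ∀ i ≤ k, ∀ t ∈ Icc m0 M0, ‖iteratedFDerivWithin ℝ i Real.log (Ioi 0) t‖ ≤ B := by
  have hcd : ContDiffOn ℝ (⊤ : ℕ∞) Real.log (Ioi 0) := by
    intro t ht
    exact (contDiffAt_id.log (ne_of_gt ht)).contDiffWithinAt
  have h1 : ∀ i : ℕ, ∃ B : ℝ, ∀ t ∈ Icc m0 M0, ‖iteratedFDerivWithin ℝ i Real.log (Ioi 0) t‖ ≤ B := by
    intro i
    have hc : ContinuousOn (iteratedFDerivWithin ℝ i Real.log (Ioi 0)) (Ioi 0) :=
      hcd.continuousOn_iteratedFDerivWithin (by exact_mod_cast le_top) (uniqueDiffOn_Ioi 0)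
    obtain ⟨B, hB⟩ := (isCompact_Icc (a := m0) (b := M0)).exists_bound_of_continuousOn
      (hc.mono fun t ht => lt_of_lt_of_le hm ht.1)
    exact ⟨B, hB⟩
  choose B hB using h1
  refine ⟨∑ i ∈ Finset.range (k + 1), |B i|, Finset.sum_nonneg fun i _ => abs_nonneg _,
    fun i hi t ht => ?_⟩
  refine (hB i t ht).trans ((le_abs_self _).trans ?_)
  exact Finset.single_le_sum (f := fun i => |B i|) (fun j _ => abs_nonneg _)
    (Finset.mem_range.2 (Nat.lt_succ_of_le hi))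

/-- the derivatives of order `≥ 2` of an affine function vanish -/
theorem rg_affine (p : E n) (d : ℝ) {k : ℕ} (hk : 2 ≤ k) (x : E n) :
    iteratedFDeriv ℝ k (fun z : E n => ⟪p, z⟫ + d) x = 0 := by
  obtain ⟨m, rfl⟩ : ∃ m, k = m + 2 := ⟨k - 2, by omega⟩
  rw [← norm_eq_zero]
  have h1 : fderiv ℝ (fun z : E n => ⟪p, z⟫ + d) = fun _ => innerSL ℝ p := by
    funext z
    have : HasFDerivAt (fun z : E n => ⟪p, z⟫ + d) (innerSL ℝ p) z := by
      have := (innerSL ℝ p).hasFDerivAt (x := z)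
      simpa using this.add_const d
    exact this.fderiv
  rw [show m + 2 = (m + 1) + 1 from rfl, ← norm_iteratedFDeriv_fderiv, h1,
    iteratedFDeriv_const_of_ne (by omega)]
  simp

theorem rg_bdd {W : E n → ℝ} {c C : ℝ} (h : Reg W c C) {k : ℕ} (hk : 2 ≤ k) :
    ∃ B : ℝ, ∀ y, ‖iteratedFDeriv ℝ k (logLap W) y‖ ≤ B := by
  have hc := h.c_pos
  -- reference integrals
  have hgw : ∀ {s : ℝ}, 0 < s → GW (fun z : E n => s / 2 * ‖z‖ ^ 2) (s / 2) 0 := by
    intro s hs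
    exact ⟨half_pos hs, by fun_prop, fun x => by simp⟩
  have hC : 0 < max C 1 := lt_max_of_lt_right one_pos
  set m0 := ∫ z : E n, Real.exp (⟪z, (0 : E n)⟫ - (max C 1) / 2 * ‖z‖ ^ 2) with hm0
  set M0 := ∫ z : E n, Real.exp (⟪z, (0 : E n)⟫ - c / 2 * ‖z‖ ^ 2) with hM0
  have hm0p : 0 < m0 := rg_pos (hgw hC) 0
  obtain ⟨Bl, hBl0, hBl⟩ := rg_log_bdd (M0 := M0) hm0p k
  set μ : ℕ → ℝ := fun i => ∫ z : E n, Real.exp (⟪z, (0 : E n)⟫ - c / 2 * ‖z‖ ^ 2) * (‖z‖ ^ i * ‖(1 : ℝ)‖)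
    with hμ
  have hμ0 : ∀ i, 0 ≤ μ i := fun i => integral_nonneg fun z => by positivity
  set D := 1 + ∑ i ∈ Finset.range (k + 1), μ i with hD
  have hD1 : 1 ≤ D := by
    have := Finset.sum_nonneg (s := Finset.range (k + 1)) fun i _ => hμ0 i
    linarith
  refine ⟨(k.factorial : ℝ) * Bl * D ^ k, fun y => ?_⟩
  obtain ⟨p, hp⟩ := rg_crit h y
  have hrc := rg_rc_GW h hp
  have hZs : ContDiff ℝ (⊤ : ℕ∞) (lapI (rc W p y) (fun _ => (1 : ℝ))) := lapI_contDiff hrc rg_one_pgr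
  have hZpos : ∀ z, 0 < lapI (rc W p y) (fun _ => (1 : ℝ)) z := fun z => by
    rw [rg_lapI_one]; exact rg_pos hrc z
  -- the value at zero
  have hval : lapI (rc W p y) (fun _ => (1 : ℝ)) 0 ∈ Icc m0 M0 := by
    rw [rg_lapI_one]
    constructor
    · refine integral_mono (rg_int (hgw hC) 0) (rg_int hrc 0) fun z => Real.exp_le_exp.2 ?_
      have h1 := rg_rc_upper h hp z
      have h2 : C / 2 * ‖z‖ ^ 2 ≤ (max C 1) / 2 * ‖z‖ ^ 2 := by
        have := le_max_left C 1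
        gcongr
      linarith
    · refine integral_mono (rg_int hrc 0) (rg_int (hgw hc) 0) fun z => Real.exp_le_exp.2 ?_
      have h1 := rg_rc_lower h hp z
      linarith
  -- the derivatives at zero
  have hder : ∀ i, 1 ≤ i → i ≤ k →
      ‖iteratedFDeriv ℝ i (lapI (rc W p y) (fun _ => (1 : ℝ))) 0‖ ≤ D ^ i := by
    intro i hi hik
    refine (lapI_iterated_le hrc i _ rg_one_pgr 0).trans ?_
    have h1 : ∫ x, Real.exp (⟪x, (0 : E n)⟫ - rc W p y x) * (‖x‖ ^ i * ‖(1 : ℝ)‖) ≤ μ i := by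
      have e1 : ∀ (U : E n → ℝ), (fun x : E n => Real.exp (⟪x, (0 : E n)⟫ - U x) * (‖x‖ ^ i * ‖(1 : ℝ)‖)) =
          fun x => Real.exp (⟪x, (0 : E n)⟫ - U x) • (‖x‖ ^ i) := by
        intro U
        funext x
        simp
      refine integral_mono ?_ ?_ fun z => ?_
      · rw [e1]
        exact ra_integrable hrc (rg_pow_pgr i) 0
      · rw [e1 (fun z => c / 2 * ‖z‖ ^ 2)]
        exact ra_integrable (hgw hc) (rg_pow_pgr i) 0
      · refine mul_le_mul_of_nonneg_right (Real.exp_le_exp.2 ?_) (by positivity)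
        have h1 := rg_rc_lower h hp z
        linarith
    have h2 : μ i ≤ D := by
      have := Finset.single_le_sum (f := μ) (s := Finset.range (k + 1)) (fun j _ => hμ0 j)
        (Finset.mem_range.2 (Nat.lt_succ_of_le hik))
      linarith
    have h3 : D ≤ D ^ i := le_self_pow₀ hD1 (by omega)
    exact (h1.trans h2).trans h3
  have hcomp := norm_iteratedFDeriv_comp_le' (𝕜 := ℝ) (g := Real.log)
    (f := lapI (rc W p y) (fun _ => (1 : ℝ))) (n := k) (N := (⊤ : ℕ∞)) (t := Ioi 0)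
    (by rintro _ ⟨z, rfl⟩; exact hZpos z) (uniqueDiffOn_Ioi 0)
    (fun t ht => (contDiffAt_id.log (ne_of_gt ht)).contDiffWithinAt) hZs
    (by exact_mod_cast le_top) 0 (C := Bl) (D := D)
    (fun i hi => hBl i hi _ hval) hder
  -- transfer
  have hfun : (fun z => logLap W (y + z)) = (fun z : E n => ⟪p, z⟫ + (⟪p, y⟫ - W p)) +
      (Real.log ∘ lapI (rc W p y) (fun _ => (1 : ℝ))) := by
    funext z
    exact rg_shift h hp z
  have h1 : iteratedFDeriv ℝ k (logLap W) y = iteratedFDeriv ℝ k (fun z => logLap W (y + z)) 0 := by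
    rw [iteratedFDeriv_comp_add_left, add_zero]
  have haff : ContDiffAt ℝ k (fun z : E n => ⟪p, z⟫ + (⟪p, y⟫ - W p)) 0 :=
    (ContDiff.add (contDiff_const.inner ℝ contDiff_id) contDiff_const).contDiffAt
  have hlog : ContDiffAt ℝ k (Real.log ∘ lapI (rc W p y) (fun _ => (1 : ℝ))) 0 := by
    have h2 := hZs.log fun z => (hZpos z).ne'
    exact (h2.of_le (by exact_mod_cast le_top)).contDiffAt
  rw [h1, hfun, iteratedFDeriv_add_apply haff hlog, rg_affine p _ hk, zero_add]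
  exact hcomp

/-- Prekopa: upper Hessian bound of the log-Laplace transform as convexity -/
theorem rg_upper {W : E n → ℝ} {c C : ℝ} (h : Reg W c C) :
    ConvexOn ℝ univ (fun y : E n => c⁻¹ / 2 * ‖y‖ ^ 2 - logLap W y) := by
  have hc := h.c_pos
  set F : E n → E n → ℝ := fun x y =>
    (W x - c / 2 * ‖x‖ ^ 2) + c / 2 * ‖x - c⁻¹ • y‖ ^ 2 with hF
  have hid : ∀ x y : E n, ⟪x, y⟫ - W x = c⁻¹ / 2 * ‖y‖ ^ 2 + -F x y := by
    intro x y
    simp only [hF]
    rw [norm_sub_sq_real, inner_smul_right, norm_smul, Real.norm_of_nonneg (by positivity)]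
    field_simp
    ring
  have hconv : ConvexOn ℝ univ (fun p : E n × E n => F p.1 p.2) := by
    have h1 := (rl_convex_lower (rg_C2 h) h.lower).comp_linearMap
      (LinearMap.fst ℝ (E n) (E n))
    have h2 : ConvexOn ℝ univ (fun x : E n => c / 2 * ‖x‖ ^ 2) := LKHB.convex_sqE (by positivity)
    have h3 := h2.comp_linearMap (LinearMap.fst ℝ (E n) (E n) - c⁻¹ • LinearMap.snd ℝ (E n) (E n))
    exact h1.add h3
  have hint : ∀ y, Integrable (fun x => Real.exp (-F x y)) := by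
    intro y
    have h1 := (rg_int (rg_GW h) y).mul_const (Real.exp (-(c⁻¹ / 2 * ‖y‖ ^ 2)))
    refine h1.congr (ae_of_all _ fun x => ?_)
    simp only
    rw [← Real.exp_add, hid]
    congr 1
    ring
  refine (LKHB.prekopaE F hconv hint).congr fun y _ => ?_
  have h1 : ∫ x, Real.exp (⟪x, y⟫ - W x) =
      Real.exp (c⁻¹ / 2 * ‖y‖ ^ 2) * ∫ x, Real.exp (-F x y) := by
    rw [← integral_const_mul]
    refine integral_congr_ae (ae_of_all _ fun x => ?_)
    simp only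
    rw [hid, Real.exp_add]
  unfold logLap
  rw [h1, Real.log_mul (Real.exp_pos _).ne' (integral_exp_pos (hint y)).ne', Real.log_exp]
  ring

/-- Hoelder: lower Hessian bound of the log-Laplace transform as convexity -/
theorem rg_lower {W : E n → ℝ} {c C : ℝ} (hC : 0 < C) (h : Reg W c C) :
    ConvexOn ℝ univ (fun y : E n => logLap W y - C⁻¹ / 2 * ‖y‖ ^ 2) := by
  set G : E n → E n → ℝ := fun z y =>
    (C / 2 * ‖z + C⁻¹ • y‖ ^ 2 - W (z + C⁻¹ • y)) - C / 2 * ‖z‖ ^ 2 with hG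
  have hid : ∀ z y : E n, ⟪z + C⁻¹ • y, y⟫ - W (z + C⁻¹ • y) = C⁻¹ / 2 * ‖y‖ ^ 2 + G z y := by
    intro z y
    simp only [hG]
    rw [norm_add_sq_real, inner_add_left, inner_smul_left, inner_smul_right,
      real_inner_self_eq_norm_sq, norm_smul, Real.norm_of_nonneg (by positivity)]
    simp only [conj_trivial]
    field_simp
    ring
  have hconv : ∀ z, ConvexOn ℝ univ (G z) := by
    intro z
    have h1 := rl_convex_upper (rg_C2 h) h.upper
    have h2 : ConvexOn ℝ univ (fun y : E n => C / 2 * ‖z + C⁻¹ • y‖ ^ 2 - W (z + C⁻¹ • y)) := by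
      have h3 := (h1.translate_right z).comp_linearMap (C⁻¹ • (LinearMap.id : E n →ₗ[ℝ] E n))
      exact h3
    refine (h2.add_const (-(C / 2 * ‖z‖ ^ 2))).congr fun y _ => ?_
    simp only [hG, Pi.add_apply]
    ring
  have hint0 : ∀ y, Integrable (fun z : E n => Real.exp (⟪z + C⁻¹ • y, y⟫ - W (z + C⁻¹ • y))) :=
    fun y => (rg_int (rg_GW h) y).comp_add_right (C⁻¹ • y)
  have hint : ∀ y, Integrable (fun z => Real.exp (G z y)) := by
    intro y
    have h1 := (hint0 y).mul_const (Real.exp (-(C⁻¹ / 2 * ‖y‖ ^ 2)))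
    refine h1.congr (ae_of_all _ fun z => ?_)
    simp only
    rw [← Real.exp_add, hid]
    congr 1
    ring
  refine (LKHB.holder_convex (volume : Measure (E n)) G hconv hint).congr fun y _ => ?_
  have h1 : ∫ x, Real.exp (⟪x, y⟫ - W x) =
      Real.exp (C⁻¹ / 2 * ‖y‖ ^ 2) * ∫ z, Real.exp (G z y) := by
    rw [← integral_add_right_eq_self (fun x => Real.exp (⟪x, y⟫ - W x)) (C⁻¹ • y),
      ← integral_const_mul]
    refine integral_congr_ae (ae_of_all _ fun z => ?_)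
    simp only
    rw [hid, Real.exp_add]
  unfold logLap
  rw [h1, Real.log_mul (Real.exp_pos _).ne' (integral_exp_pos (hint y)).ne', Real.log_exp]
  ring

end Vale.Agent.P227.M.RegLap

namespace Vale.Agent.P227.M

/-- the log-Laplace transform of a regular potential is regular -/
theorem reg_logLap {n : ℕ} {W : E n → ℝ} {c C : ℝ} (hC : 0 < C) (h : Reg W c C) :
    Reg (logLap W) C⁻¹ c⁻¹ where
  c_pos := inv_pos.2 hC
  smooth := RegLap.rg_smooth (RegLap.rg_GW h)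
  lower := RegLap.rl_lower_of_convex
    (RegLap.rg_C2' (RegLap.rg_smooth (RegLap.rg_GW h))) (RegLap.rg_lower hC h)
  upper := RegLap.rl_upper_of_convex
    (RegLap.rg_C2' (RegLap.rg_smooth (RegLap.rg_GW h))) (RegLap.rg_upper h)
  bdd := fun _ hk => RegLap.rg_bdd h hk

end Vale.Agent.P227.M

namespace Vale.Agent.P227.M

/-- in positive dimension the upper constant is positive -/
theorem reg_C_pos {n : ℕ} (hn : 0 < n) {W : E n → ℝ} {c C : ℝ} (h : Reg W c C) : 0 < C := by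
  have h1 := h.lower 0 (ei ⟨0, hn⟩)
  have h2 := h.upper 0 (ei ⟨0, hn⟩)
  have h3 : ‖(ei ⟨0, hn⟩ : E n)‖ = 1 := by simp [ei]
  rw [h3] at h1 h2
  have := h.c_pos
  linarith

/-- the log-Laplace transform of an even function is even -/
theorem logLap_even {n : ℕ} {W : E n → ℝ} (h : ∀ x, W (-x) = W x) (y : E n) :
    logLap W (-y) = logLap W y := by
  unfold logLap
  rw [← integral_neg_eq_self]
  congr 1
  refine integral_congr_ae (ae_of_all _ fun x => ?_)
  simp only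
  rw [h, inner_neg_neg]

/-- the log-Laplace transform of a nice potential is nice -/
theorem nice_logLap {n : ℕ} {W : E n → ℝ} {c C : ℝ} (hC : 0 < C) (h : Nice W c C) :
    Nice (logLap W) C⁻¹ c⁻¹ where
  toReg := reg_logLap hC h.toReg
  even := logLap_even h.even

end Vale.Agent.P227.M
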