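import Vale.Agent.P227.M.Defs
import Vale.Agent.P227.M.Lap.Smooth

/-! P227, block LL: bounds of the iterated derivatives of Laplace integrals. -/

set_option autoImplicit false

open MeasureTheory Filter Topology

namespace Vale.Agent.P227.M.LL

open Lap

universe u

section gen

variable {E : Type*} [NormedAddCommGroup E] [NormedSpace ℝ E] [MeasurableSpace E] [BorelSpace E]
  [SecondCountableTopology E]
variable {E' : Type u} [NormedAddCommGroup E'] [NormedSpace ℝ E']

/-- norm bound of all derivatives of a Laplace integral -/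
theorem norm_iterated_lap {μ : Measure E} (B : E →L[ℝ] E' →L[ℝ] ℝ) (j : ℕ) :
    ∀ {G : Type u} [NormedAddCommGroup G] [NormedSpace ℝ G] {g : E → G}, Expo μ g → ∀ y : E',
      ‖iteratedFDeriv ℝ j (lap B μ g) y‖ ≤ ∫ x, Real.exp (B x y) * (‖B x‖ ^ j * ‖g x‖) ∂μ := by
  induction j with
  | zero =>
    intro G _ _ g hg y
    rw [norm_iteratedFDeriv_zero]
    unfold lap
    refine (norm_integral_le_integral_norm _).trans (le_of_eq ?_)
    refine integral_congr_ae (Eventually.of_forall fun x => ?_)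
    change ‖Real.exp (B x y) • g x‖ = Real.exp (B x y) * (‖B x‖ ^ 0 * ‖g x‖)
    rw [norm_smul, Real.norm_of_nonneg (Real.exp_pos _).le, pow_zero, one_mul]
  | succ j ih =>
    intro G _ _ g hg y
    rw [← norm_iteratedFDeriv_fderiv]
    have : fderiv ℝ (lap B μ g) = lap B μ (fun x => (B x).smulRight (g x)) := by
      funext y
      exact (hasFDerivAt_lap hg B y).fderiv
    rw [this]
    refine (ih (hg.smulRight B) y).trans (le_of_eq ?_)
    refine integral_congr_ae (Eventually.of_forall fun x => ?_)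
    change Real.exp (B x y) * (‖B x‖ ^ j * ‖(B x).smulRight (g x)‖) =
      Real.exp (B x y) * (‖B x‖ ^ (j + 1) * ‖g x‖)
    rw [ContinuousLinearMap.norm_smulRight_apply, pow_succ]
    ring

end gen

/-- bounds of the derivatives of `log ∘ G` from bounds of the derivatives of `G` -/
theorem norm_iterated_log_comp {E : Type*} [NormedAddCommGroup E] [NormedSpace ℝ E] (k : ℕ)
    {g0 m0 : ℝ} (hg0 : 0 < g0) (D : ℝ) :
    ∃ K : ℝ, ∀ (G : E → ℝ), ContDiff ℝ (⊤ : ℕ∞) G → (∀ y, 0 < G y) → ∀ y, g0 ≤ G y → G y ≤ m0 →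
      (∀ i, 1 ≤ i → i ≤ k → ‖iteratedFDeriv ℝ i G y‖ ≤ D ^ i) →
      ‖iteratedFDeriv ℝ k (fun z => Real.log (G z)) y‖ ≤ K := by
  have hlog : ContDiffOn ℝ (⊤ : ℕ∞) Real.log (Set.Ioi 0) := by
    intro x hx
    exact (Real.contDiffAt_log.2 (ne_of_gt hx)).contDiffWithinAt
  have hbd : ∀ i : ℕ, ∃ c : ℝ, ∀ t ∈ Set.Icc g0 m0,
      ‖iteratedFDerivWithin ℝ i Real.log (Set.Ioi 0) t‖ ≤ c := by
    intro i
    have hc : ContinuousOn (iteratedFDerivWithin ℝ i Real.log (Set.Ioi 0)) (Set.Icc g0 m0) :=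
      (hlog.continuousOn_iteratedFDerivWithin (by exact_mod_cast le_top)
        (uniqueDiffOn_Ioi 0)).mono fun t ht => hg0.trans_le ht.1
    exact isCompact_Icc.exists_bound_of_continuousOn hc
  choose c hc using hbd
  refine ⟨k.factorial * (∑ i ∈ Finset.range (k + 1), |c i|) * D ^ k, ?_⟩
  intro G hG hpos y h1 h2 hD
  have := norm_iteratedFDerivWithin_comp_le (𝕜 := ℝ) (g := Real.log) (f := G) (n := k)
    (s := Set.univ) (t := Set.Ioi 0) (x := y) (N := (⊤ : ℕ∞)) hlog hG.contDiffOn
    (by exact_mod_cast le_top) (uniqueDiffOn_Ioi 0) uniqueDiffOn_univ (fun z _ => hpos z)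
    (Set.mem_univ y) (C := ∑ i ∈ Finset.range (k + 1), |c i|) (D := D) (by
      intro i hi
      refine (hc i (G y) ⟨h1, h2⟩).trans ((le_abs_self _).trans ?_)
      exact Finset.single_le_sum (f := fun i => |c i|) (fun i _ => abs_nonneg _)
        (Finset.mem_range.2 (Nat.lt_succ_of_le hi))) (by
      intro i hi1 hi2
      rw [iteratedFDerivWithin_univ]
      exact hD i hi1 hi2)
  rw [iteratedFDerivWithin_univ] at this
  exact this

end Vale.Agent.P227.M.LL
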