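import Mathlib

/-! Log-Laplace calculus in a finite dimensional inner product space. -/

set_option linter.unusedSectionVars false

open MeasureTheory Filter Topology
open scoped RealInnerProductSpace ContDiff

namespace Vale.Agent.P227.M.LL108



variable {E : Type} [NormedAddCommGroup E] [InnerProductSpace ℝ E] [MeasurableSpace E]
  [BorelSpace E] [FiniteDimensional ℝ E]

/-- all exponential moments of the measure `ν` are finite -/
def ExpMom (ν : Measure E) : Prop := ∀ R : ℝ, Integrable (fun x => Real.exp (R * ‖x‖)) ν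

/-- `∫ exp ⟪x,y⟫ • G x dν` -/
noncomputable def lapI {H : Type} [NormedAddCommGroup H] [NormedSpace ℝ H] (ν : Measure E)
    (G : E → H) (y : E) : H := ∫ x, Real.exp (⟪x, y⟫) • G x ∂ν

/-- exponential growth class -/
def EG {H : Type} [NormedAddCommGroup H] (ν : Measure E) (G : E → H) : Prop :=
  AEStronglyMeasurable G ν ∧ ∃ C r : ℝ, ∀ x, ‖G x‖ ≤ C * Real.exp (r * ‖x‖)

variable {ν : Measure E}

theorem EG.integrable {H : Type} [NormedAddCommGroup H] [NormedSpace ℝ H] {G : E → H}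
    (hν : ExpMom ν) (hG : EG ν G) (y : E) :
    Integrable (fun x => Real.exp (⟪x, y⟫) • G x) ν := by
  obtain ⟨hm, C, r, hC⟩ := hG
  have hC0 : 0 ≤ C := by
    have h := hC 0
    simp only [norm_zero, mul_zero, Real.exp_zero, mul_one] at h
    exact le_trans (norm_nonneg _) h
  refine Integrable.mono' ((hν (‖y‖ + r)).const_mul C) ?_ ?_
  · refine AEStronglyMeasurable.smul ?_ hm
    exact (by fun_prop : Continuous fun x : E => Real.exp (⟪x, y⟫)).aestronglyMeasurable
  · refine Eventually.of_forall fun x => ?_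
    rw [norm_smul, Real.norm_eq_abs, abs_of_pos (Real.exp_pos _)]
    calc Real.exp (⟪x, y⟫) * ‖G x‖ ≤ Real.exp (‖y‖ * ‖x‖) * (C * Real.exp (r * ‖x‖)) := by
          refine mul_le_mul (Real.exp_le_exp.2 ?_) (hC x) (norm_nonneg _) (Real.exp_pos _).le
          calc ⟪x, y⟫ ≤ ‖x‖ * ‖y‖ := real_inner_le_norm x y
            _ = ‖y‖ * ‖x‖ := mul_comm _ _
      _ = C * Real.exp ((‖y‖ + r) * ‖x‖) := by
          rw [add_mul, Real.exp_add]; ring

/-- the derivative weight -/
noncomputable def dG {H : Type} [NormedAddCommGroup H] [NormedSpace ℝ H] (G : E → H) (x : E) :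
    E →L[ℝ] H := (innerSL ℝ x).smulRight (G x)

theorem EG.dG {H : Type} [NormedAddCommGroup H] [NormedSpace ℝ H] {G : E → H}
    (hG : EG ν G) : EG ν (dG G) := by
  obtain ⟨hm, C, r, hC⟩ := hG
  have hC0 : 0 ≤ C := by
    have h := hC 0
    simp only [norm_zero, mul_zero, Real.exp_zero, mul_one] at h
    exact le_trans (norm_nonneg _) h
  refine ⟨?_, C, r + 1, fun x => ?_⟩
  · have hc : Continuous fun p : E × H => ((innerSL ℝ p.1).smulRight p.2 : E →L[ℝ] H) := by
      have h1 : Continuous fun p : E × H => innerSL ℝ p.1 := (innerSL ℝ).continuous.comp continuous_fst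
      have := (ContinuousLinearMap.smulRightL ℝ E H).continuous₂.comp
        (h1.prodMk (continuous_snd : Continuous fun p : E × H => p.2))
      exact this
    exact hc.comp_aestronglyMeasurable (aestronglyMeasurable_id.prodMk hm)
  · unfold LL108.dG
    rw [ContinuousLinearMap.norm_smulRight_apply, innerSL_apply_norm]
    calc ‖x‖ * ‖G x‖ ≤ Real.exp ‖x‖ * (C * Real.exp (r * ‖x‖)) := by
          refine mul_le_mul ?_ (hC x) (norm_nonneg _) (Real.exp_pos _).le
          linarith [Real.add_one_le_exp ‖x‖]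
      _ = C * Real.exp ((r + 1) * ‖x‖) := by
          rw [add_mul, one_mul, Real.exp_add]; ring

theorem hasFDerivAt_lapI {H : Type} [NormedAddCommGroup H] [NormedSpace ℝ H] {G : E → H}
    (hν : ExpMom ν) (hG : EG ν G) (y : E) :
    HasFDerivAt (lapI ν G) (lapI ν (dG G) y) y := by
  obtain ⟨hm, C, r, hC⟩ := hG
  have hG' : EG ν G := ⟨hm, C, r, hC⟩
  have hC0 : 0 ≤ C := by
    have h := hC 0
    simp only [norm_zero, mul_zero, Real.exp_zero, mul_one] at h
    exact le_trans (norm_nonneg _) h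
  obtain ⟨hdm, -⟩ := hG'.dG
  have key := hasFDerivAt_integral_of_dominated_of_fderiv_le (𝕜 := ℝ) (μ := ν)
    (F := fun y x => Real.exp (⟪x, y⟫) • G x)
    (F' := fun y x => Real.exp (⟪x, y⟫) • dG G x) (x₀ := y)
    (bound := fun x => C * Real.exp ((‖y‖ + 1 + (r + 1)) * ‖x‖))
    (s := Metric.ball y 1) (Metric.ball_mem_nhds y one_pos) ?_ ?_ ?_ ?_ ?_ ?_
  · exact key
  · exact Eventually.of_forall fun y' => (hG'.integrable hν y').aestronglyMeasurable
  · exact hG'.integrable hν y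
  · exact (hG'.dG.integrable hν y).aestronglyMeasurable
  · refine Eventually.of_forall fun x y' hy' => ?_
    have hy1 : ‖y'‖ ≤ ‖y‖ + 1 := by
      have h1 : ‖y' - y‖ < 1 := by rw [← dist_eq_norm]; exact Metric.mem_ball.1 hy'
      have h2 : ‖y'‖ ≤ ‖y‖ + ‖y' - y‖ := by
        have := norm_add_le y (y' - y)
        simpa using this
      linarith
    rw [norm_smul, Real.norm_eq_abs, abs_of_pos (Real.exp_pos _)]
    unfold LL108.dG
    rw [ContinuousLinearMap.norm_smulRight_apply, innerSL_apply_norm]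
    calc Real.exp (⟪x, y'⟫) * (‖x‖ * ‖G x‖)
        ≤ Real.exp ((‖y‖ + 1) * ‖x‖) * (Real.exp ‖x‖ * (C * Real.exp (r * ‖x‖))) := by
          refine mul_le_mul (Real.exp_le_exp.2 ?_) ?_ (by positivity) (Real.exp_pos _).le
          · calc ⟪x, y'⟫ ≤ ‖x‖ * ‖y'‖ := real_inner_le_norm x y'
              _ ≤ ‖x‖ * (‖y‖ + 1) := by gcongr
              _ = (‖y‖ + 1) * ‖x‖ := mul_comm _ _
          · refine mul_le_mul ?_ (hC x) (norm_nonneg _) (Real.exp_pos _).le
            linarith [Real.add_one_le_exp ‖x‖]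
      _ = C * Real.exp ((‖y‖ + 1 + (r + 1)) * ‖x‖) := by
          have : (‖y‖ + 1 + (r + 1)) * ‖x‖ = (‖y‖ + 1) * ‖x‖ + (‖x‖ + r * ‖x‖) := by ring
          rw [this, Real.exp_add, Real.exp_add]; ring
  · exact (hν _).const_mul C
  · refine Eventually.of_forall fun x y' _ => ?_
    have h1 : HasFDerivAt (fun y : E => (⟪x, y⟫ : ℝ)) (innerSL ℝ x) y' := (innerSL ℝ x).hasFDerivAt
    have h2 := (h1.exp).smul_const (G x)
    convert h2 using 1
    ext v
    simp [LL108.dG, smul_smul]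

theorem contDiff_lapI_nat (n : ℕ) : ∀ {H : Type} [NormedAddCommGroup H] [NormedSpace ℝ H]
    {G : E → H}, ExpMom ν → EG ν G → ContDiff ℝ n (lapI ν G) := by
  induction n with
  | zero =>
    intro H _ _ G hν hG
    exact contDiff_zero.2 (continuous_iff_continuousAt.2 fun y =>
      (hasFDerivAt_lapI hν hG y).continuousAt)
  | succ n ih =>
    intro H _ _ G hν hG
    have := contDiff_succ_iff_hasFDerivAt (𝕜 := ℝ) (n := n) (f := lapI ν G)
    push_cast
    exact this.2 ⟨lapI ν (dG G), ih hν hG.dG, fun y => hasFDerivAt_lapI hν hG y⟩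

theorem contDiff_lapI {H : Type} [NormedAddCommGroup H] [NormedSpace ℝ H]
    {G : E → H} (hν : ExpMom ν) (hG : EG ν G) : ContDiff ℝ ∞ (lapI ν G) :=
  contDiff_infty.2 fun n => contDiff_lapI_nat n hν hG

/-! ### closure of the growth class -/

theorem EG.const (c : ℝ) : EG ν (fun _ : E => c) :=
  ⟨aestronglyMeasurable_const, |c|, 0, fun x => by simp⟩

theorem EG.mul {f g : E → ℝ} (hf : EG ν f) (hg : EG ν g) : EG ν (fun x => f x * g x) := by
  obtain ⟨hfm, C, r, hC⟩ := hf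
  obtain ⟨hgm, C', r', hC'⟩ := hg
  refine ⟨hfm.mul hgm, C * C', r + r', fun x => ?_⟩
  rw [norm_mul]
  calc ‖f x‖ * ‖g x‖ ≤ (C * Real.exp (r * ‖x‖)) * (C' * Real.exp (r' * ‖x‖)) :=
        mul_le_mul (hC x) (hC' x) (norm_nonneg _) (le_trans (norm_nonneg _) (hC x))
    _ = C * C' * Real.exp ((r + r') * ‖x‖) := by rw [add_mul, Real.exp_add]; ring

theorem EG.add {f g : E → ℝ} (hf : EG ν f) (hg : EG ν g) : EG ν (fun x => f x + g x) := by
  obtain ⟨hfm, C, r, hC⟩ := hf
  obtain ⟨hgm, C', r', hC'⟩ := hg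
  have hC0 : 0 ≤ C := by
    have h := hC 0
    simp only [norm_zero, mul_zero, Real.exp_zero, mul_one] at h
    exact le_trans (abs_nonneg _) h
  have hC0' : 0 ≤ C' := by
    have h := hC' 0
    simp only [norm_zero, mul_zero, Real.exp_zero, mul_one] at h
    exact le_trans (abs_nonneg _) h
  refine ⟨hfm.add hgm, C + C', max r r', fun x => ?_⟩
  calc ‖f x + g x‖ ≤ ‖f x‖ + ‖g x‖ := norm_add_le _ _
    _ ≤ C * Real.exp (r * ‖x‖) + C' * Real.exp (r' * ‖x‖) := add_le_add (hC x) (hC' x)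
    _ ≤ C * Real.exp (max r r' * ‖x‖) + C' * Real.exp (max r r' * ‖x‖) := by
        gcongr
        · exact le_max_left _ _
        · exact le_max_right _ _
    _ = (C + C') * Real.exp (max r r' * ‖x‖) := by ring

theorem EG.inner (v : E) : EG ν (fun x : E => (⟪x, v⟫ : ℝ)) := by
  refine ⟨(by fun_prop : Continuous fun x : E => (⟪x, v⟫ : ℝ)).aestronglyMeasurable, ‖v‖, 1,
    fun x => ?_⟩
  calc ‖(⟪x, v⟫ : ℝ)‖ ≤ ‖x‖ * ‖v‖ := norm_inner_le_norm x v
    _ = ‖v‖ * ‖x‖ := mul_comm _ _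
    _ ≤ ‖v‖ * Real.exp (1 * ‖x‖) := by
        gcongr
        rw [one_mul]
        linarith [Real.add_one_le_exp ‖x‖]

theorem EG.pow {f : E → ℝ} (hf : EG ν f) (n : ℕ) : EG ν (fun x => f x ^ n) := by
  induction n with
  | zero => simpa using EG.const (ν := ν) (E := E) 1
  | succ n ih => simpa [pow_succ] using ih.mul hf

theorem EG.sub_const {f : E → ℝ} (hf : EG ν f) (c : ℝ) : EG ν (fun x => f x - c) := by
  simpa [sub_eq_add_neg] using hf.add (EG.const (ν := ν) (E := E) (-c))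

/-! ### normalised quantities -/

/-- partition function -/
noncomputable def Z (ν : Measure E) (y : E) : ℝ := ∫ x, Real.exp (⟪x, y⟫) ∂ν

/-- log-Laplace transform -/
noncomputable def Lam (ν : Measure E) (y : E) : ℝ := Real.log (Z ν y)

/-- expectation in the tilted law -/
noncomputable def Ev (ν : Measure E) (y : E) (g : E → ℝ) : ℝ :=
  (∫ x, Real.exp (⟪x, y⟫) * g x ∂ν) / Z ν y

theorem lapI_real (g : E → ℝ) (y : E) : lapI ν g y = ∫ x, Real.exp (⟪x, y⟫) * g x ∂ν := rfl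

theorem Z_eq (y : E) : Z ν y = lapI ν (fun _ => (1 : ℝ)) y := by simp [Z, lapI]

theorem integrable_exp (hν : ExpMom ν) (y : E) : Integrable (fun x => Real.exp (⟪x, y⟫)) ν := by
  simpa using (EG.const (ν := ν) (E := E) 1).integrable hν y

theorem Z_pos (hν : ExpMom ν) [NeZero ν] (y : E) : 0 < Z ν y :=
  integral_exp_pos (integrable_exp hν y)

theorem integrable_exp_mul (hν : ExpMom ν) {g : E → ℝ} (hg : EG ν g) (y : E) :
    Integrable (fun x => Real.exp (⟪x, y⟫) * g x) ν := hg.integrable hν y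

theorem fderiv_lapI_apply (hν : ExpMom ν) {g : E → ℝ} (hg : EG ν g) (y v : E) :
    lapI ν (dG g) y v = ∫ x, Real.exp (⟪x, y⟫) * (g x * ⟪x, v⟫) ∂ν := by
  unfold lapI
  rw [ContinuousLinearMap.integral_apply (hg.dG.integrable hν y)]
  refine integral_congr_ae (Eventually.of_forall fun x => ?_)
  simp [dG]
  ring

/-- `D_v ∫ g e^{⟪x,y⟫} = ∫ g ⟪x,v⟫ e^{⟪x,y⟫}` -/
theorem hasFDerivAt_int (hν : ExpMom ν) {g : E → ℝ} (hg : EG ν g) (y : E) :
    ∃ L : E →L[ℝ] ℝ, HasFDerivAt (fun y => ∫ x, Real.exp (⟪x, y⟫) * g x ∂ν) L y ∧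
      ∀ v, L v = ∫ x, Real.exp (⟪x, y⟫) * (g x * ⟪x, v⟫) ∂ν :=
  ⟨_, hasFDerivAt_lapI hν hg y, fun v => fderiv_lapI_apply hν hg y v⟩

theorem hasFDerivAt_Z (hν : ExpMom ν) (y : E) :
    ∃ L : E →L[ℝ] ℝ, HasFDerivAt (Z ν) L y ∧
      ∀ v, L v = ∫ x, Real.exp (⟪x, y⟫) * ⟪x, v⟫ ∂ν := by
  obtain ⟨L, hL, hL'⟩ := hasFDerivAt_int hν (EG.const (ν := ν) (E := E) 1) y
  refine ⟨L, ?_, fun v => by simpa using hL' v⟩
  have hZ : Z ν = fun y => ∫ x, Real.exp (⟪x, y⟫) * (1 : ℝ) ∂ν := by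
    funext y; simp [Z]
  rw [hZ]
  exact hL

theorem Ev_const (hν : ExpMom ν) [NeZero ν] (y : E) (c : ℝ) : Ev ν y (fun _ => c) = c := by
  unfold Ev
  rw [integral_mul_const]
  exact mul_div_cancel_left₀ _ (Z_pos hν y).ne'

theorem Ev_add (hν : ExpMom ν) {f g : E → ℝ} (hf : EG ν f) (hg : EG ν g) (y : E) :
    Ev ν y (fun x => f x + g x) = Ev ν y f + Ev ν y g := by
  unfold Ev
  rw [← add_div, ← integral_add (integrable_exp_mul hν hf y) (integrable_exp_mul hν hg y)]
  congr 1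
  refine integral_congr_ae (Eventually.of_forall fun x => ?_)
  simp only
  ring

theorem Ev_smul (y : E) (c : ℝ) (f : E → ℝ) : Ev ν y (fun x => c * f x) = c * Ev ν y f := by
  unfold Ev
  rw [← mul_div_assoc, ← integral_const_mul]
  congr 1
  refine integral_congr_ae (Eventually.of_forall fun x => ?_)
  simp only
  ring

theorem Ev_mono (hν : ExpMom ν) [NeZero ν] {f g : E → ℝ} (hf : EG ν f) (hg : EG ν g) (y : E)
    (h : ∀ x, f x ≤ g x) : Ev ν y f ≤ Ev ν y g := by
  unfold Ev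
  refine div_le_div_of_nonneg_right ?_ (Z_pos hν y).le
  exact integral_mono (integrable_exp_mul hν hf y) (integrable_exp_mul hν hg y) fun x =>
    mul_le_mul_of_nonneg_left (h x) (Real.exp_pos _).le

/-- derivative of a tilted expectation is a covariance -/
theorem hasFDerivAt_Ev (hν : ExpMom ν) [NeZero ν] {g : E → ℝ} (hg : EG ν g) (y : E) :
    ∃ L : E →L[ℝ] ℝ, HasFDerivAt (fun y => Ev ν y g) L y ∧
      ∀ v, L v = Ev ν y (fun x => g x * ⟪x, v⟫) - Ev ν y g * Ev ν y (fun x => ⟪x, v⟫) := by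
  obtain ⟨L1, h1, h1'⟩ := hasFDerivAt_int hν hg y
  obtain ⟨L0, h0, h0'⟩ := hasFDerivAt_Z hν y
  have hZ := Z_pos hν y
  have hinv : HasFDerivAt (fun y => (Z ν y)⁻¹) (-(Z ν y ^ 2)⁻¹ • L0) y :=
    (hasDerivAt_inv hZ.ne').comp_hasFDerivAt y h0
  have hm : HasFDerivAt (fun y => Ev ν y g) _ y := h1.mul hinv
  refine ⟨_, hm, fun v => ?_⟩
  simp only [_root_.add_apply, _root_.smul_apply, smul_eq_mul, h1' v, h0' v, Ev]
  field_simp
  ring

theorem hasFDerivAt_Lam (hν : ExpMom ν) [NeZero ν] (y : E) :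
    ∃ L : E →L[ℝ] ℝ, HasFDerivAt (Lam ν) L y ∧ ∀ v, L v = Ev ν y (fun x => ⟪x, v⟫) := by
  obtain ⟨L0, h0, h0'⟩ := hasFDerivAt_Z hν y
  have hZ := Z_pos hν y
  refine ⟨_, h0.log hZ.ne', fun v => ?_⟩
  simp only [_root_.smul_apply, smul_eq_mul, h0' v, Ev]
  field_simp

theorem contDiff_Z (hν : ExpMom ν) : ContDiff ℝ ∞ (Z ν) := by
  have := contDiff_lapI hν (EG.const (ν := ν) (E := E) 1)
  have h : Z ν = lapI ν (fun _ => (1 : ℝ)) := funext fun y => Z_eq y
  rw [h]
  -- universe of ℝ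
  exact this

theorem contDiff_Lam (hν : ExpMom ν) [NeZero ν] : ContDiff ℝ ∞ (Lam ν) :=
  (contDiff_Z hν).log fun y => (Z_pos hν y).ne'

theorem contDiff_Ev (hν : ExpMom ν) [NeZero ν] {g : E → ℝ} (hg : EG ν g) :
    ContDiff ℝ ∞ (fun y => Ev ν y g) :=
  (contDiff_lapI hν hg).div (contDiff_Z hν) fun y => (Z_pos hν y).ne'

/-! ### centred moments in one direction -/

/-- mean, variance, third central moment of `⟪x,v⟫` in the tilted law -/
noncomputable def mean (ν : Measure E) (v y : E) : ℝ := Ev ν y fun x => ⟪x, v⟫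
noncomputable def var (ν : Measure E) (v y : E) : ℝ := Ev ν y fun x => (⟪x, v⟫ - mean ν v y) ^ 2
noncomputable def k3 (ν : Measure E) (v y : E) : ℝ := Ev ν y fun x => (⟪x, v⟫ - mean ν v y) ^ 3

noncomputable def mom (ν : Measure E) (v y : E) (j : ℕ) : ℝ := Ev ν y fun x => ⟪x, v⟫ ^ j

theorem EG.mom (v : E) (j : ℕ) : EG ν (fun x : E => (⟪x, v⟫ : ℝ) ^ j) := (EG.inner v).pow j

theorem hasDerivAt_mom (hν : ExpMom ν) [NeZero ν] (y v : E) (j : ℕ) (t : ℝ) :
    HasDerivAt (fun t : ℝ => LL108.mom ν v (y + t • v) j)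
      (LL108.mom ν v (y + t • v) (j + 1) - LL108.mom ν v (y + t • v) j * LL108.mom ν v (y + t • v) 1) t := by
  obtain ⟨L, hL, hL'⟩ := hasFDerivAt_Ev hν (EG.mom (ν := ν) v j) (y + t • v)
  have hline : HasDerivAt (fun t : ℝ => y + t • v) v t := by
    simpa using ((hasDerivAt_id t).smul_const v).const_add y
  have := hL.comp_hasDerivAt t hline
  have h2 := hL' v
  simp only [LL108.mom, pow_succ, pow_zero, one_mul] at *
  rw [h2] at this
  exact this

theorem mean_eq (v y : E) : mean ν v y = LL108.mom ν v y 1 := by simp [mean, LL108.mom]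

theorem var_eq (hν : ExpMom ν) [NeZero ν] (v y : E) :
    var ν v y = LL108.mom ν v y 2 - LL108.mom ν v y 1 ^ 2 := by
  unfold var
  rw [mean_eq]
  set m := LL108.mom ν v y 1 with hm
  have e : (fun x : E => ((⟪x, v⟫ : ℝ) - m) ^ 2)
      = fun x => (⟪x, v⟫ : ℝ) ^ 2 + ((-2 * m) * (⟪x, v⟫ : ℝ) ^ 1 + m ^ 2) := by
    funext x; ring
  have h1 : EG ν (fun x : E => (-2 * m) * (⟪x, v⟫ : ℝ) ^ 1) := (EG.const _).mul (EG.mom v 1)
  rw [e, Ev_add hν (EG.mom v 2) (h1.add (EG.const _)), Ev_add hν h1 (EG.const _), Ev_smul,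
    Ev_const hν]
  change LL108.mom ν v y 2 + (-2 * m * LL108.mom ν v y 1 + m ^ 2) = _
  rw [← hm]; ring

theorem k3_eq (hν : ExpMom ν) [NeZero ν] (v y : E) :
    k3 ν v y = LL108.mom ν v y 3 - 3 * LL108.mom ν v y 2 * LL108.mom ν v y 1
      + 2 * LL108.mom ν v y 1 ^ 3 := by
  unfold k3
  rw [mean_eq]
  set m := LL108.mom ν v y 1 with hm
  have e : (fun x : E => ((⟪x, v⟫ : ℝ) - m) ^ 3)
      = fun x => (⟪x, v⟫ : ℝ) ^ 3 + ((-3 * m) * (⟪x, v⟫ : ℝ) ^ 2 +
        ((3 * m ^ 2) * (⟪x, v⟫ : ℝ) ^ 1 + (-m ^ 3))) := by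
    funext x; ring
  have h2 : EG ν (fun x : E => (-3 * m) * (⟪x, v⟫ : ℝ) ^ 2) := (EG.const _).mul (EG.mom v 2)
  have h1 : EG ν (fun x : E => (3 * m ^ 2) * (⟪x, v⟫ : ℝ) ^ 1) := (EG.const _).mul (EG.mom v 1)
  rw [e, Ev_add hν (EG.mom v 3) (h2.add (h1.add (EG.const _))),
    Ev_add hν h2 (h1.add (EG.const _)), Ev_add hν h1 (EG.const _), Ev_smul, Ev_smul,
    Ev_const hν]
  change LL108.mom ν v y 3 + (-3 * m * LL108.mom ν v y 2 + (3 * m ^ 2 * LL108.mom ν v y 1 + -m ^ 3)) = _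
  rw [← hm]; ring

theorem hasDerivAt_Lam (hν : ExpMom ν) [NeZero ν] (y v : E) (t : ℝ) :
    HasDerivAt (fun t : ℝ => Lam ν (y + t • v)) (mean ν v (y + t • v)) t := by
  obtain ⟨L, hL, hL'⟩ := hasFDerivAt_Lam hν (y + t • v)
  have hline : HasDerivAt (fun t : ℝ => y + t • v) v t := by
    simpa using ((hasDerivAt_id t).smul_const v).const_add y
  have := hL.comp_hasDerivAt t hline
  rw [hL' v] at this
  exact this

theorem hasDerivAt_mean (hν : ExpMom ν) [NeZero ν] (y v : E) (t : ℝ) :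
    HasDerivAt (fun t : ℝ => mean ν v (y + t • v)) (var ν v (y + t • v)) t := by
  have := hasDerivAt_mom hν y v 1 t
  rw [var_eq hν]
  simp only [mean_eq]
  convert this using 1
  ring

theorem hasDerivAt_var (hν : ExpMom ν) [NeZero ν] (y v : E) (t : ℝ) :
    HasDerivAt (fun t : ℝ => var ν v (y + t • v)) (k3 ν v (y + t • v)) t := by
  have h2 := hasDerivAt_mom hν y v 2 t
  have h1 := hasDerivAt_mom hν y v 1 t
  rw [k3_eq hν]
  have hf : (fun t : ℝ => var ν v (y + t • v))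
      = fun t => LL108.mom ν v (y + t • v) 2 - LL108.mom ν v (y + t • v) 1 ^ 2 := by
    funext t; exact var_eq hν _ _
  rw [hf]
  have h3 : HasDerivAt (fun t : ℝ => LL108.mom ν v (y + t • v) 2 - LL108.mom ν v (y + t • v) 1 ^ 2) _ t :=
    h2.sub (h1.pow 2)
  refine h3.congr_deriv ?_
  norm_num
  ring

/-- iterated derivatives along a line -/
theorem iteratedDeriv_line {F : Type*} [NormedAddCommGroup F] [NormedSpace ℝ F] {f : E → F}
    {n : ℕ} (hf : ContDiff ℝ n f) (y v : E) (t : ℝ) :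
    iteratedDeriv n (fun t : ℝ => f (y + t • v)) t
      = iteratedFDeriv ℝ n f (y + t • v) (fun _ => v) := by
  induction n generalizing t with
  | zero => simp
  | succ n ih =>
    have hn : ContDiff ℝ n f := hf.of_le (by exact_mod_cast Nat.le_succ n)
    have hfun : iteratedDeriv n (fun t : ℝ => f (y + t • v))
        = fun t => iteratedFDeriv ℝ n f (y + t • v) (fun _ => v) := funext fun t => ih hn t
    rw [iteratedDeriv_succ, hfun, iteratedFDeriv_succ_apply_left]
    have hd : DifferentiableAt ℝ (iteratedFDeriv ℝ n f) (y + t • v) :=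
      (hf.differentiable_iteratedFDeriv (by exact_mod_cast Nat.lt_succ_self n)) _
    have hline : HasDerivAt (fun t : ℝ => y + t • v) v t := by
      simpa using ((hasDerivAt_id t).smul_const v).const_add y
    have h1 := hd.hasFDerivAt.comp_hasDerivAt t hline
    have h2 := ((ContinuousMultilinearMap.apply ℝ (fun _ : Fin n => E) F
      (fun _ => v)).hasFDerivAt (x := iteratedFDeriv ℝ n f (y + t • v))).comp_hasDerivAt t h1
    exact h2.deriv

theorem iteratedFDeriv_two_Lam (hν : ExpMom ν) [NeZero ν] (y v : E) :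
    iteratedFDeriv ℝ 2 (Lam ν) y (fun _ => v) = var ν v y := by
  have h := iteratedDeriv_line (n := 2) (contDiff_infty.1 (contDiff_Lam hν) 2) y v 0
  simp only [zero_smul, add_zero] at h
  rw [← h, iteratedDeriv_succ, iteratedDeriv_one]
  have h1 : deriv (fun t : ℝ => Lam ν (y + t • v)) = fun t => mean ν v (y + t • v) :=
    funext fun t => (hasDerivAt_Lam hν y v t).deriv
  rw [h1]
  simpa using (hasDerivAt_mean hν y v 0).deriv

theorem iteratedFDeriv_three_Lam (hν : ExpMom ν) [NeZero ν] (y v : E) :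
    iteratedFDeriv ℝ 3 (Lam ν) y (fun _ => v) = k3 ν v y := by
  have h := iteratedDeriv_line (n := 3) (contDiff_infty.1 (contDiff_Lam hν) 3) y v 0
  simp only [zero_smul, add_zero] at h
  rw [← h, iteratedDeriv_succ, iteratedDeriv_succ, iteratedDeriv_one]
  have h1 : deriv (fun t : ℝ => Lam ν (y + t • v)) = fun t => mean ν v (y + t • v) :=
    funext fun t => (hasDerivAt_Lam hν y v t).deriv
  have h2 : deriv (fun t : ℝ => mean ν v (y + t • v)) = fun t => var ν v (y + t • v) :=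
    funext fun t => (hasDerivAt_mean hν y v t).deriv
  rw [h1, h2]
  simpa using (hasDerivAt_var hν y v 0).deriv

end Vale.Agent.P227.M.LL108
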