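import Mathlib

/-! # Laplace integrals with a Gaussian weight: smoothness and bounds of all derivatives

`W x ≥ a ‖x‖² - b` (continuous), `g` continuous with polynomial growth: the function
`y ↦ ∫ exp (⟪x, y⟫ - W x) • g x` is smooth; `‖iteratedFDeriv k‖ ≤ ∫ exp (⟪x,y⟫ - W x) ‖x‖^k ‖g x‖`. -/

open MeasureTheory Set Real
open scoped Topology RealInnerProductSpace

namespace Vale.Agent.P227.M.RegLap

set_option linter.unusedSectionVars false

variable {V : Type} [NormedAddCommGroup V] [InnerProductSpace ℝ V] [FiniteDimensional ℝ V]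
  [MeasurableSpace V] [BorelSpace V]

/-- the Gaussian is integrable -/
theorem ra_gauss_integrable {a : ℝ} (ha : 0 < a) :
    Integrable (fun x : V => Real.exp (-(a * ‖x‖ ^ 2))) := by
  have h := GaussianFourier.integrable_cexp_neg_mul_sq_norm_add (V := V) (b := (a : ℂ))
    (by simpa using ha) 0 0
  refine h.norm.congr (ae_of_all _ fun x => ?_)
  simp only [Complex.norm_exp]
  congr 1
  have : (-(a : ℂ) * (‖x‖ : ℂ) ^ 2 + 0 * ((inner ℝ (0 : V) x : ℝ) : ℂ)) = ((-(a * ‖x‖ ^ 2) : ℝ) : ℂ) := by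
    push_cast; ring
  rw [this, Complex.ofReal_re]

/-- pointwise domination of `(1+t)^q exp (R t - a t²)` -/
theorem ra_dom {a : ℝ} (ha : 0 < a) (q : ℕ) (R t : ℝ) (ht : 0 ≤ t) :
    (1 + t) ^ q * Real.exp (R * t - a * t ^ 2) ≤
      (q.factorial : ℝ) * Real.exp (1 + (R + 1) ^ 2 / (2 * a)) * Real.exp (-(a / 2 * t ^ 2)) := by
  have h1 : (1 + t) ^ q ≤ (q.factorial : ℝ) * Real.exp (1 + t) := by
    have h := Real.pow_div_factorial_le_exp (1 + t) (by linarith) q
    have hq : (0 : ℝ) < q.factorial := by exact_mod_cast Nat.factorial_pos q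
    rw [div_le_iff₀ hq] at h
    linarith
  have h2 : (R + 1) * t ≤ a / 2 * t ^ 2 + (R + 1) ^ 2 / (2 * a) := by
    have h3 : 0 ≤ (a * t - (R + 1)) ^ 2 / (2 * a) := by positivity
    have h4 : (a * t - (R + 1)) ^ 2 / (2 * a) = a / 2 * t ^ 2 - (R + 1) * t + (R + 1) ^ 2 / (2 * a) := by
      field_simp
      ring
    linarith
  calc (1 + t) ^ q * Real.exp (R * t - a * t ^ 2)
      ≤ (q.factorial : ℝ) * Real.exp (1 + t) * Real.exp (R * t - a * t ^ 2) :=
        mul_le_mul_of_nonneg_right h1 (Real.exp_pos _).le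
    _ = (q.factorial : ℝ) * Real.exp (1 + t + (R * t - a * t ^ 2)) := by rw [Real.exp_add (1 + t)]; ring
    _ ≤ (q.factorial : ℝ) * Real.exp (1 + (R + 1) ^ 2 / (2 * a) + -(a / 2 * t ^ 2)) := by
        refine mul_le_mul_of_nonneg_left (Real.exp_le_exp.2 ?_) (by positivity)
        nlinarith [h2]
    _ = _ := by rw [Real.exp_add (1 + (R + 1) ^ 2 / (2 * a))]; ring

/-- weight data: continuous with a quadratic lower bound -/
structure GW (W : V → ℝ) (a b : ℝ) : Prop where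
  a_pos : 0 < a
  cont : Continuous W
  lower : ∀ x, a * ‖x‖ ^ 2 - b ≤ W x

/-- polynomial growth -/
def PGr {F : Type} [NormedAddCommGroup F] (g : V → F) : Prop :=
  Continuous g ∧ ∃ (q : ℕ) (K : ℝ), ∀ x, ‖g x‖ ≤ K * (1 + ‖x‖) ^ q

variable {F : Type} [NormedAddCommGroup F] [NormedSpace ℝ F]

/-- the bound used for domination, uniform for `‖y‖ ≤ R` -/
theorem ra_bound {W : V → ℝ} {a b : ℝ} (hW : GW W a b) {g : V → F} {q : ℕ} {K : ℝ}
    (hg : ∀ x, ‖g x‖ ≤ K * (1 + ‖x‖) ^ q) {R : ℝ} {y : V} (hy : ‖y‖ ≤ R) (x : V) :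
    Real.exp (⟪x, y⟫ - W x) * ‖g x‖ ≤
      (K * Real.exp b * ((q.factorial : ℝ) * Real.exp (1 + (R + 1) ^ 2 / (2 * a)))) *
        Real.exp (-(a / 2 * ‖x‖ ^ 2)) := by
  have hK : 0 ≤ K := by
    have := (norm_nonneg _).trans (hg 0)
    simpa using this
  have h1 : Real.exp (⟪x, y⟫ - W x) ≤ Real.exp b * Real.exp (R * ‖x‖ - a * ‖x‖ ^ 2) := by
    rw [← Real.exp_add]
    refine Real.exp_le_exp.2 ?_
    have h2 := hW.lower x
    have h3 : ⟪x, y⟫ ≤ ‖x‖ * ‖y‖ := real_inner_le_norm x y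
    have h4 : ‖x‖ * ‖y‖ ≤ ‖x‖ * R := mul_le_mul_of_nonneg_left hy (norm_nonneg _)
    linarith [mul_comm R ‖x‖]
  calc Real.exp (⟪x, y⟫ - W x) * ‖g x‖
      ≤ (Real.exp b * Real.exp (R * ‖x‖ - a * ‖x‖ ^ 2)) * (K * (1 + ‖x‖) ^ q) :=
        mul_le_mul h1 (hg x) (norm_nonneg _) (by positivity)
    _ = K * Real.exp b * ((1 + ‖x‖) ^ q * Real.exp (R * ‖x‖ - a * ‖x‖ ^ 2)) := by ring
    _ ≤ K * Real.exp b * ((q.factorial : ℝ) * Real.exp (1 + (R + 1) ^ 2 / (2 * a)) *
          Real.exp (-(a / 2 * ‖x‖ ^ 2))) :=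
        mul_le_mul_of_nonneg_left (ra_dom hW.a_pos q R ‖x‖ (norm_nonneg _)) (by positivity)
    _ = _ := by ring

theorem ra_integrable {W : V → ℝ} {a b : ℝ} (hW : GW W a b) {g : V → F} (hg : PGr g) (y : V) :
    Integrable (fun x => Real.exp (⟪x, y⟫ - W x) • g x) := by
  obtain ⟨hc, q, K, hK⟩ := hg
  refine Integrable.mono' ((ra_gauss_integrable (V := V) (a := a / 2) (by have := hW.a_pos; positivity)).const_mul
    (K * Real.exp b * ((q.factorial : ℝ) * Real.exp (1 + (‖y‖ + 1) ^ 2 / (2 * a))))) ?_ ?_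
  · refine Continuous.aestronglyMeasurable ?_
    exact (Real.continuous_exp.comp (((continuous_id.inner continuous_const)).sub hW.cont)).smul hc
  · refine ae_of_all _ fun x => ?_
    rw [norm_smul, Real.norm_of_nonneg (Real.exp_pos _).le]
    exact ra_bound hW hK le_rfl x

/-- the Laplace integral -/
noncomputable def lapI (W : V → ℝ) (g : V → F) (y : V) : F :=
  ∫ x, Real.exp (⟪x, y⟫ - W x) • g x

/-- the derivative weight -/
noncomputable def dg (g : V → F) (x : V) : V →L[ℝ] F := (innerSL ℝ x).smulRight (g x)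

theorem dg_norm (g : V → F) (x : V) : ‖dg g x‖ = ‖x‖ * ‖g x‖ := by
  rw [dg, ContinuousLinearMap.norm_smulRight_apply, innerSL_apply_norm]

theorem dg_pgr {g : V → F} (hg : PGr g) : PGr (dg g) := by
  obtain ⟨hc, q, K, hK⟩ := hg
  have hK0 : 0 ≤ K := by
    have := (norm_nonneg _).trans (hK 0)
    simpa using this
  refine ⟨?_, q + 1, K, fun x => ?_⟩
  · unfold dg
    exact (ContinuousLinearMap.smulRightL ℝ V F).continuous₂.comp
      (((innerSL ℝ).continuous).prodMk hc)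
  · rw [dg_norm, pow_succ]
    have h1 : ‖x‖ ≤ 1 + ‖x‖ := by linarith
    calc ‖x‖ * ‖g x‖ ≤ (1 + ‖x‖) * (K * (1 + ‖x‖) ^ q) :=
          mul_le_mul h1 (hK x) (norm_nonneg _) (by positivity)
      _ = K * ((1 + ‖x‖) ^ q * (1 + ‖x‖)) := by ring

theorem lapI_hasFDerivAt {W : V → ℝ} {a b : ℝ} (hW : GW W a b) {g : V → F} (hg : PGr g) (y : V) :
    HasFDerivAt (lapI W g) (lapI W (dg g) y) y := by
  obtain ⟨hc', q', K', hK'⟩ := dg_pgr hg
  have key := hasFDerivAt_integral_of_dominated_of_fderiv_le (𝕜 := ℝ) (μ := (volume : Measure V))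
    (F := fun (y : V) (x : V) => Real.exp (⟪x, y⟫ - W x) • g x)
    (F' := fun (y : V) (x : V) => Real.exp (⟪x, y⟫ - W x) • dg g x) (x₀ := y)
    (s := Metric.ball y 1)
    (bound := fun x => (K' * Real.exp b * ((q'.factorial : ℝ) *
      Real.exp (1 + ((‖y‖ + 1) + 1) ^ 2 / (2 * a)))) * Real.exp (-(a / 2 * ‖x‖ ^ 2)))
    (Metric.ball_mem_nhds y one_pos) ?_ ?_ ?_ ?_ ?_ ?_
  · exact key
  · exact Filter.Eventually.of_forall fun z => (ra_integrable hW hg z).aestronglyMeasurable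
  · exact ra_integrable hW hg y
  · exact (ra_integrable hW (dg_pgr hg) y).aestronglyMeasurable
  · refine ae_of_all _ fun x z hz => ?_
    rw [norm_smul, Real.norm_of_nonneg (Real.exp_pos _).le]
    refine ra_bound hW hK' ?_ x
    have h1 : ‖z‖ ≤ ‖y‖ + ‖z - y‖ := by
      have := norm_add_le y (z - y)
      simpa using this
    have h2 : ‖z - y‖ < 1 := by simpa [dist_eq_norm] using hz
    linarith
  · exact (ra_gauss_integrable (V := V) (a := a / 2) (by have := hW.a_pos; positivity)).const_mul _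
  · refine ae_of_all _ fun x z _ => ?_
    have h1 : HasFDerivAt (fun z : V => ⟪x, z⟫ - W x) (innerSL ℝ x) z := by
      have := (innerSL ℝ x).hasFDerivAt (x := z)
      simpa using this.sub_const (W x)
    have h2 := (h1.exp).smul_const (g x)
    convert h2 using 1
    ext v
    simp [dg, mul_smul]

theorem lapI_contDiff_nat {W : V → ℝ} {a b : ℝ} (hW : GW W a b) (n : ℕ) :
    ∀ {F : Type} [NormedAddCommGroup F] [NormedSpace ℝ F] (g : V → F), PGr g →
      ContDiff ℝ n (lapI W g) := by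
  induction n with
  | zero =>
    intro F _ _ g hg
    rw [Nat.cast_zero, contDiff_zero]
    exact continuous_iff_continuousAt.2 fun y => (lapI_hasFDerivAt hW hg y).continuousAt
  | succ n ih =>
    intro F _ _ g hg
    rw [Nat.cast_succ, contDiff_succ_iff_hasFDerivAt]
    exact ⟨lapI W (dg g), ih (dg g) (dg_pgr hg), fun y => lapI_hasFDerivAt hW hg y⟩

theorem lapI_contDiff {W : V → ℝ} {a b : ℝ} (hW : GW W a b) {g : V → F} (hg : PGr g) :
    ContDiff ℝ (⊤ : ℕ∞) (lapI W g) :=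
  contDiff_infty.2 fun n => lapI_contDiff_nat hW n g hg

theorem lapI_iterated_le {W : V → ℝ} {a b : ℝ} (hW : GW W a b) (k : ℕ) :
    ∀ {F : Type} [NormedAddCommGroup F] [NormedSpace ℝ F] (g : V → F), PGr g → ∀ y,
      ‖iteratedFDeriv ℝ k (lapI W g) y‖ ≤ ∫ x, Real.exp (⟪x, y⟫ - W x) * (‖x‖ ^ k * ‖g x‖) := by
  induction k with
  | zero =>
    intro F _ _ g hg y
    rw [norm_iteratedFDeriv_zero]
    refine (norm_integral_le_integral_norm _).trans (le_of_eq ?_)
    refine integral_congr_ae (ae_of_all _ fun x => ?_)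
    simp only [norm_smul, Real.norm_of_nonneg (Real.exp_pos _).le, pow_zero, one_mul]
  | succ k ih =>
    intro F _ _ g hg y
    have h1 : fderiv ℝ (lapI W g) = lapI W (dg g) := by
      funext z
      exact (lapI_hasFDerivAt hW hg z).fderiv
    rw [← norm_iteratedFDeriv_fderiv, h1]
    refine (ih (dg g) (dg_pgr hg) y).trans (le_of_eq ?_)
    refine integral_congr_ae (ae_of_all _ fun x => ?_)
    simp only [dg_norm, pow_succ]
    ring

end Vale.Agent.P227.M.RegLap
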