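import Vale.Agent.P227.M.LL.RegLap
import Vale.Agent.P227.M.LK.SCInv

/-! # `LK.RegLL` holds -/

namespace Vale.Agent.P227.M

/-- the hypothesis `LK.RegLL` of `LK/SCInv.lean` and `MM/Inv.lean` -/
theorem regLL : LK.RegLL := fun n W c C h hC => by
  simpa only [one_div] using reg_logLap hC h

end Vale.Agent.P227.M
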